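import Vale.Agent.P040.H242.SlotWord
import Vale.Agent.P040.H198.HHTop
import Vale.Agent.P040.H84.Core

/-!
# The loop of the own leaf: real lifts and winding of the potentials

From the geometric input `CoreHyp` of `H84/CoreDef.lean` for the framed lists of all spine stars we
obtain the hypotheses `hsim` and `hloop` of `Slot.hh_top`.
-/

set_option autoImplicit false

namespace Vale.Agent.P040.H84

variable {X G : Type*} [Group G] {h : ℕ} {T : X → G} {Val : X → G → ℝ → Prop}
  {Dg : List (X × G) → Prop} {ε : ℝ}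

section hyp

variable (H : CoreHyp h T Val Dg ε)

include H

/-- the block of the first `h - 1` arms after an arm has a value -/
theorem CoreHyp.exists_first {p : X × G} {M : List (X × G)} (hD : Dg (p :: M)) :
    ∃ v, Val p.1 (p.2⁻¹ * pr T (M.take (h - 1)) * p.2) v := by
  have h1 := H.len hD
  have h2 := H.two_le
  rw [List.length_cons] at h1
  obtain ⟨x, M1, rfl⟩ : ∃ x M1, M = x :: M1 := by
    cases M with
    | nil => rw [List.length_nil] at h1; omega
    | cons x M1 => exact ⟨x, M1, rfl⟩
  rw [List.length_cons] at h1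
  obtain ⟨c, M2, hM⟩ : ∃ c M2, M1.drop (h - 2) = c :: M2 := by
    cases hd : M1.drop (h - 2) with
    | nil =>
      have := congrArg List.length hd
      rw [List.length_drop, List.length_nil] at this
      omega
    | cons c M2 => exact ⟨c, M2, rfl⟩
  have e : M1 = M1.take (h - 2) ++ c :: M2 := by rw [← hM, List.take_append_drop]
  have hl : (M1.take (h - 2)).length = h - 2 := by rw [List.length_take]; omega
  rw [e] at hD
  obtain ⟨c1, c2, a2, a3, b3, b1, -, -, -, q, -⟩ := H.tri (a := p) (A := []) (b := x) hD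
    (by rw [hl, List.length_nil]; omega)
  refine ⟨a3, ?_⟩
  have e2 : (x :: M1).take (h - 1) = x :: M1.take (h - 2) := by
    obtain ⟨k, hk⟩ : ∃ k, h = k + 2 := ⟨h - 2, by omega⟩
    subst hk
    rfl
  rw [e2, pr_cons]
  simpa using q

/-- the block of the last `h - 1` arms before an arm has a value -/
theorem CoreHyp.exists_last {p : X × G} {M : List (X × G)} (hD : Dg (p :: M)) :
    ∃ v, Val p.1 (p.2⁻¹ * pr T (M.drop h) * p.2) v := by
  have h1 := H.len hD
  have h2 := H.two_le
  rw [List.length_cons] at h1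
  have hl1 : (M.drop (h - 1)).length = h := by rw [List.length_drop]; omega
  obtain ⟨a, B, hB⟩ : ∃ a B, M.drop (h - 1) = a :: B := by
    cases hd : M.drop (h - 1) with
    | nil => rw [hd, List.length_nil] at hl1; omega
    | cons a B => exact ⟨a, B, rfl⟩
  have hB1 : M.drop h = B := by
    have : M.drop h = (M.drop (h - 1)).drop 1 := by
      rw [List.drop_drop]; congr 1; omega
    rw [this, hB]; rfl
  have hBl : B.length = h - 1 := by rw [hB, List.length_cons] at hl1; omega
  obtain ⟨x, B1, rfl⟩ : ∃ x B1, B = x :: B1 := by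
    cases B with
    | nil => rw [List.length_nil] at hBl; omega
    | cons x B1 => exact ⟨x, B1, rfl⟩
  rw [List.length_cons] at hBl
  have e : p :: M = (p :: M.take (h - 1)) ++ (a :: x :: B1) := by
    rw [List.cons_append, ← hB, List.take_append_drop]
  rw [e] at hD
  have hD' := H.rotn hD
  have e3 : (a :: x :: B1) ++ p :: M.take (h - 1) = a :: ([] ++ x :: (B1 ++ p :: M.take (h - 1))) := by
    simp
  rw [e3] at hD'
  obtain ⟨c1, c2, a2, a3, b3, b1, q, -⟩ := H.tri hD' (by rw [List.length_nil]; omega)
  refine ⟨c1, ?_⟩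
  rw [hB1, pr_cons]
  simpa using q

theorem CoreHyp.vv_twist {z : X} {R : G} (hv : ∃ v, Val z R v) :
    vv Val z ((T z)⁻¹ * R * T z) = vv Val z R + ε * (h - 1) := by
  obtain ⟨v, hv⟩ := hv
  rw [H.vv_eq hv, H.vv_eq (H.twist hv)]

end hyp

/-- simultaneous conjugation -/
theorem Fp_conj (t : G) (z : X) (w : G) {M M' : List (X × G)}
    (hM : M'.map (gg T) = M.map fun p => t * gg T p * t⁻¹) :
    Fp h T Val (z, t * w) M' = Fp h T Val (z, w) M := by
  have key : ∀ l : List (X × G), (l.map fun p => t * gg T p * t⁻¹).prod = t * pr T l * t⁻¹ := by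
    intro l
    induction l with
    | nil => simp
    | cons a l ih => rw [List.map_cons, List.prod_cons, ih, pr_cons]; group
  have h1 : ∀ k, pr T (M'.take k) = t * pr T (M.take k) * t⁻¹ := by
    intro k
    rw [← key, List.map_take, ← hM, ← List.map_take]
    rfl
  have h2 : ∀ k, pr T (M'.drop k) = t * pr T (M.drop k) * t⁻¹ := by
    intro k
    rw [← key, List.map_drop, ← hM, ← List.map_drop]
    rfl
  unfold Fp
  simp only
  rw [h1, h2]
  congr 3 <;> group

end Vale.Agent.P040.H84

namespace Vale.Agent.P040.Slot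

open Topo HH Pst H84

variable {p : ℕ} (C : CompDiag (2 * p)) {Γ : Type*} (G : Gaps C.pos Γ)
  {Val : Fin (2 * p) → FreeGroup Γ → ℝ → Prop}
  {Dg : List (Fin (2 * p) × FreeGroup Γ) → Prop} {e : ℝ}

/-- the framed list of a spine star -/
noncomputable def frl {m : ℕ} {leaf : Fin m → ℝ} (G : Gaps leaf Γ) (s : Bp.SStar leaf) :
    List (Fin m × FreeGroup Γ) := s.rot.map fun x => (x, s.fw G x)

variable {C}

theorem frl_sim {ε : ℝ} (hε : GoodE C ε) {b : Fin (2 * p)} {S S' : Slt C b} (h : S.Sim S') :
    frl G (S.star hε) = frl G (S'.star hε) := by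
  classical
  have hB : ∀ x, x ≠ b → (x ∈ S.B ↔ x ∈ S'.B) := by
    intro x hx
    have := h x hx
    unfold Slt.wr at this
    tauto
  unfold frl
  rw [S.star_framed G hε, S'.star_framed G hε]
  have h1 : S.bef = S'.bef := by
    unfold Slt.bef
    apply List.filter_congr
    intro x hx
    exact decide_eq_decide.2 (hB x (mem_rotE.1 hx))
  have h2 : S.aft = S'.aft := by
    unfold Slt.aft
    apply List.filter_congr
    intro x hx
    exact decide_eq_decide.2 (not_congr (hB x (mem_rotE.1 hx)))
  rw [h1, h2]

variable (C)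

/-- the framed arms for the slot before all arms -/
noncomputable def M0 (b : Fin (2 * p)) : List (Fin (2 * p) × FreeGroup Γ) :=
  (rotE C b).map fun x => (x, fw0 G b x)

theorem length_rotE {n : ℕ} (C : CompDiag n) (b : Fin n) : (rotE C b).length = n - 1 := by
  classical
  have h1 : (rotE C b).toFinset = Finset.univ.erase b := by
    ext x
    rw [List.mem_toFinset, mem_rotE, Finset.mem_erase]
    simp
  rw [← List.toFinset_card_of_nodup rotE_nodup, h1, Finset.card_erase_of_mem (Finset.mem_univ _),
    Finset.card_univ, Fintype.card_fin]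

/-- the number of arms before an arm is its index -/
theorem rk_getElem {n : ℕ} (C : CompDiag n) (b : Fin n) {i : ℕ} (hi : i < (rotE C b).length) :
    rk C b (rotE C b)[i] = i := by
  classical
  have hp := rotE_pairwise (C := C) (b := b)
  have h0 : ∀ x, x ≠ b ↔ x ∈ rotE C b := fun x => mem_rotE.symm
  have key : (Finset.univ.filter fun y => y ≠ b ∧ ang C b y < ang C b (rotE C b)[i]) =
      ((rotE C b).take i).toFinset := by
    ext y
    rw [Finset.mem_filter, List.mem_toFinset]
    constructor
    · rintro ⟨-, h1, h2⟩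
      obtain ⟨j, hj, rfl⟩ := List.mem_iff_getElem.1 ((h0 y).1 h1)
      rw [List.mem_take_iff_getElem]
      refine ⟨j, ?_, rfl⟩
      rw [lt_min_iff]
      refine ⟨?_, hj⟩
      by_contra hle
      rcases (not_lt.1 hle).eq_or_lt with h3 | h3
      · subst h3; exact lt_irrefl _ h2
      · have := List.pairwise_iff_getElem.1 hp i j hi hj h3
        linarith
    · intro hy
      rw [List.mem_take_iff_getElem] at hy
      obtain ⟨j, hj, rfl⟩ := hy
      rw [lt_min_iff] at hj
      exact ⟨Finset.mem_univ _, (h0 _).2 (List.getElem_mem _),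
        List.pairwise_iff_getElem.1 hp j i hj.2 hi hj.1⟩
  unfold rk
  rw [key, List.toFinset_card_of_nodup (rotE_nodup.sublist (List.take_sublist _ _)),
    List.length_take]
  omega

theorem bef_cutS {n : ℕ} (C : CompDiag n) (b : Fin n) (q : ℕ) :
    (cutS C b q).bef = (rotE C b).take q ∧ (cutS C b q).aft = (rotE C b).drop q := by
  classical
  have hmem : ∀ x, x ∈ (cutS C b q).B ↔ rk C b x < q := fun x => Iff.rfl
  have h1 : (cutS C b q).bef = (rotE C b).take q := by
    have e : (rotE C b).filter (fun x => decide (x ∈ (cutS C b q).B)) =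
        ((rotE C b).take q).filter (fun x => decide (x ∈ (cutS C b q).B)) ++
        ((rotE C b).drop q).filter (fun x => decide (x ∈ (cutS C b q).B)) := by
      rw [← List.filter_append, List.take_append_drop]
    have e1 : ((rotE C b).take q).filter (fun x => decide (x ∈ (cutS C b q).B)) =
        (rotE C b).take q := by
      rw [List.filter_eq_self]
      intro x hx
      rw [List.mem_take_iff_getElem] at hx
      obtain ⟨j, hj, rfl⟩ := hx
      rw [lt_min_iff] at hj
      rw [decide_eq_true_eq, hmem, rk_getElem C b hj.2]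
      exact hj.1
    have e2 : ((rotE C b).drop q).filter (fun x => decide (x ∈ (cutS C b q).B)) = [] := by
      rw [List.filter_eq_nil_iff]
      intro x hx
      rw [List.mem_drop_iff_getElem] at hx
      obtain ⟨j, hj, rfl⟩ := hx
      rw [decide_eq_true_eq, hmem, rk_getElem C b (by omega)]
      omega
    show (rotE C b).filter (fun x => decide (x ∈ (cutS C b q).B)) = _
    rw [e, e1, e2, List.append_nil]
  refine ⟨h1, ?_⟩
  have h2 := (cutS C b q).bef_aft
  rw [h1] at h2
  exact List.append_cancel_left (h2.trans (List.take_append_drop q (rotE C b)).symm)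

/-- the framed list of the slot after the first `q` arms -/
theorem frl_cutS {ε : ℝ} (hε : GoodE C ε) (b : Fin (2 * p)) (q : ℕ) :
    frl G ((cutS C b q).star hε) =
      ((M0 C G b).take q).map (fun r => (r.1, ow G b * r.2)) ++ (b, 1) :: (M0 C G b).drop q := by
  unfold frl M0
  rw [(cutS C b q).star_framed G hε, (bef_cutS C b q).1, (bef_cutS C b q).2, ← List.map_take,
    ← List.map_drop, List.map_map]
  rfl

variable (H : CoreHyp p (Bp.SStar.tl0 G) Val Dg e)
  (hDg : ∀ s : Bp.SStar C.pos, Dg (frl G s))

include H hDg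

/-- **The loop of the own leaf.** -/
theorem hloop_of {ε : ℝ} (hε : GoodE C ε) (b : Fin (2 * p)) :
    ∃ W : ℕ → Fin (2 * p) → ℝ,
      (∀ q ≤ 2 * p - 1, ∀ z, ∃ i : ℤ,
        F p (Bp.SStar.tl0 G) Val z (frl G ((cutS C b q).star hε)) = W q z + ((p : ℝ) - 1) * i) ∧
      (∀ q < 2 * p - 1, ∑ z, |W (q + 1) z - W q z| ≤ 1) ∧
      (∀ z, ∃ i : ℤ, W (2 * p - 1) z = W 0 z + ((p : ℝ) - 1) * i) ∧
      W (2 * p - 1) b ≠ W 0 b := by
  classical
  set T := Bp.SStar.tl0 G with hT
  have hTb : T b = ow G b := rfl
  have hp2 : (2 : ℝ) ≤ p := by exact_mod_cast H.two_le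
  have hlen : (M0 C G b).length = 2 * p - 1 := by
    unfold M0; rw [List.length_map, length_rotE]
  have hgb : gg T ((b, 1) : Fin (2 * p) × FreeGroup Γ) = ow G b := by
    simp [gg, hTb]
  set LL : ℕ → List (Fin (2 * p) × FreeGroup Γ) := fun q =>
    ((M0 C G b).take q).map (fun r => (r.1, ow G b * r.2)) ++ (b, 1) :: (M0 C G b).drop q with hLL
  have hDL : ∀ q, Dg (LL q) := by
    intro q
    have := hDg ((cutS C b q).star hε)
    rwa [frl_cutS C G hε b q] at this
  -- cyclic invariance
  have hrot : ∀ (A B : List (Fin (2 * p) × FreeGroup Γ)) (z : Fin (2 * p)), Dg (A ++ B) →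
      F p T Val z (A ++ B) = F p T Val z (B ++ A) := by
    intro A B z hD
    have := H.F_rotate_n hD A.length z
    rw [List.rotate_append_length_eq] at this
    exact this.symm
  have step : ∀ q < 2 * p - 1, ∑ z, |F p T Val z (LL (q + 1)) - F p T Val z (LL q)| ≤ 1 := by
    intro q hq
    have hq' : q < (M0 C G b).length := by omega
    have e1 : (M0 C G b).drop q = (M0 C G b)[q] :: (M0 C G b).drop (q + 1) :=
      List.drop_eq_getElem_cons hq'
    have e2 : (M0 C G b).take (q + 1) = (M0 C G b).take q ++ [(M0 C G b)[q]] :=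
      (List.take_concat_get' _ _ hq').symm
    set A := ((M0 C G b).take q).map (fun r => (r.1, ow G b * r.2)) with hA
    set x := (M0 C G b)[q] with hx
    set R := (M0 C G b).drop (q + 1) with hR
    have L0 : LL q = A ++ ((b, 1) :: x :: R) := by simp only [hLL, e1, ← hA]
    have L1 : LL (q + 1) = A ++ ((x.1, ow G b * x.2) :: (b, 1) :: R) := by
      simp only [hLL, e2, List.map_append, List.map_cons, List.map_nil, ← hA, ← hR,
        List.append_assoc, List.singleton_append]
    have hD0 : Dg (A ++ ((b, 1) :: x :: R)) := L0 ▸ hDL q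
    have hD1 : Dg (A ++ ((x.1, ow G b * x.2) :: (b, 1) :: R)) := L1 ▸ hDL (q + 1)
    have hD2 : Dg (((b, 1) : Fin (2 * p) × FreeGroup Γ) :: x :: (R ++ A)) := H.rotn hD0
    have key := H.tw_le hD2
    rw [hgb] at key
    refine le_trans (le_of_eq ?_) key
    apply Finset.sum_congr rfl
    intro z _
    rw [L0, L1, hrot A _ z hD0, hrot A _ z hD1]
    simp only [List.cons_append]
  -- the last and the first list
  have hLN : LL (2 * p - 1) = (M0 C G b).map (fun r => (r.1, ow G b * r.2)) ++ [(b, 1)] := by
    simp only [hLL]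
    rw [← hlen, List.take_length, List.drop_length]
  have hL0 : LL 0 = (b, 1) :: M0 C G b := by simp [hLL]
  have hDN : Dg ((M0 C G b).map (fun r => (r.1, ow G b * r.2)) ++ [(b, 1)]) := hLN ▸ hDL _
  have hDN' : Dg (((b, 1) : Fin (2 * p) × FreeGroup Γ) ::
      (M0 C G b).map (fun r => (r.1, ow G b * r.2))) := H.rotn hDN
  have hD0 : Dg (((b, 1) : Fin (2 * p) × FreeGroup Γ) :: M0 C G b) := hL0 ▸ hDL 0
  have hggM : ∀ l : List (Fin (2 * p) × FreeGroup Γ),
      ((l.map fun r => (r.1, ow G b * r.2)).map (gg T)) =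
        l.map fun r => ow G b * gg T r * (ow G b)⁻¹ := by
    intro l
    rw [List.map_map]
    apply List.map_congr_left
    intro r _
    exact gg_conj T r (ow G b)
  -- the own leaf
  have hb0 : F p T Val b (LL 0) = Fp p T Val (b, 1) (M0 C G b) := by
    rw [hL0]
    have := F_eq p T Val (z := b) (w := 1) (A := []) (B := M0 C G b) (by simp)
    simpa using this
  have hbN : F p T Val b (LL (2 * p - 1)) =
      Fp p T Val (b, 1) ((M0 C G b).map fun r => (r.1, ow G b * r.2)) := by
    rw [hLN, hrot _ _ b hDN]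
    have := F_eq p T Val (z := b) (w := 1) (A := [])
      (B := (M0 C G b).map fun r => (r.1, ow G b * r.2)) (by simp)
    simpa using this
  have hwind : F p T Val b (LL 0) = F p T Val b (LL (2 * p - 1)) + e * ((p : ℝ) - 1) := by
    rw [hb0, hbN]
    have key : ∀ l : List (Fin (2 * p) × FreeGroup Γ),
        pr T (l.map fun r => (r.1, ow G b * r.2)) = ow G b * pr T l * (ow G b)⁻¹ := by
      intro l
      induction l with
      | nil => simp
      | cons a l ih => rw [List.map_cons, pr_cons, ih, pr_cons, gg_conj]; group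
    have v1 := H.vv_twist (H.exists_first hDN')
    have v2 := H.vv_twist (H.exists_last hDN')
    simp only [← List.map_take, ← List.map_drop, key, hTb] at v1 v2
    unfold Fp
    simp only [← List.map_take, ← List.map_drop, key]
    have r1 : (ow G b)⁻¹ * (1⁻¹ * (ow G b * pr T ((M0 C G b).take (p - 1)) * (ow G b)⁻¹) * 1) *
        ow G b = 1⁻¹ * pr T ((M0 C G b).take (p - 1)) * 1 := by group
    have r2 : (ow G b)⁻¹ * (1⁻¹ * (ow G b * pr T ((M0 C G b).drop p) * (ow G b)⁻¹) * 1) *
        ow G b = 1⁻¹ * pr T ((M0 C G b).drop p) * 1 := by group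
    rw [r1] at v1
    rw [r2] at v2
    rw [v1, v2]
    ring
  -- the other leaves
  have hoth : ∀ z, z ≠ b → F p T Val z (LL (2 * p - 1)) = F p T Val z (LL 0) := by
    intro z hz
    by_cases hzM : z ∈ (M0 C G b).map Prod.fst
    · have hn0 := H.nodup hD0
      rw [List.map_cons, List.nodup_cons] at hn0
      obtain ⟨A, w, B, hM, hA, hB⟩ := exists_split hzM hn0.2
      rw [hLN, hL0, hM, List.map_append, List.map_cons]
      have hA' : z ∉ (A.map fun r => (r.1, ow G b * r.2)).map Prod.fst := by
        rw [List.map_map]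
        exact hA
      have hA'' : z ∉ (((b, 1) : Fin (2 * p) × FreeGroup Γ) :: A).map Prod.fst := by
        rw [List.map_cons, List.mem_cons]
        rintro (h3 | h3)
        · exact hz h3
        · exact hA h3
      have e1 := F_eq p T Val (z := z) (w := ow G b * w)
        (A := A.map fun r => (r.1, ow G b * r.2))
        (B := (B.map fun r => (r.1, ow G b * r.2)) ++ [(b, 1)]) hA'
      have e2 := F_eq p T Val (z := z) (w := w) (A := (b, 1) :: A) (B := B) hA''
      rw [List.append_assoc, List.cons_append, e1]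
      rw [List.cons_append] at e2
      rw [e2]
      apply Fp_conj
      rw [List.map_append, List.map_append, hggM, hggM, List.map_append, List.map_cons,
        List.map_cons, List.map_nil, hgb]
      simp
    · have h1 : z ∉ (LL 0).map Prod.fst := by
        rw [hL0, List.map_cons, List.mem_cons]
        rintro (h3 | h3)
        · exact hz h3
        · exact hzM h3
      have h2 : z ∉ (LL (2 * p - 1)).map Prod.fst := by
        rw [hLN, List.map_append, List.map_map, List.mem_append]
        rintro (h3 | h3)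
        · exact hzM h3
        · simp at h3; exact hz h3
      rw [F_of_notMem p T Val h1, F_of_notMem p T Val h2]
  have he : e ≠ 0 := by rcases H.sgn with h1 | h1 <;> rw [h1] <;> norm_num
  refine ⟨fun q z => F p T Val z (LL q), ?_, step, ?_, ?_⟩
  · intro q _ z
    refine ⟨0, ?_⟩
    rw [frl_cutS C G hε b q]
    simp [hLL]
  · intro z
    by_cases hz : z = b
    · subst hz
      rcases H.sgn with h1 | h1
      · refine ⟨-1, ?_⟩
        show F p T Val z (LL (2 * p - 1)) = F p T Val z (LL 0) + _
        rw [hwind, h1]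
        push_cast
        ring
      · refine ⟨1, ?_⟩
        show F p T Val z (LL (2 * p - 1)) = F p T Val z (LL 0) + _
        rw [hwind, h1]
        push_cast
        ring
    · exact ⟨0, by
        show F p T Val z (LL (2 * p - 1)) = F p T Val z (LL 0) + _
        rw [hoth z hz]; simp⟩
  · show F p T Val b (LL (2 * p - 1)) ≠ F p T Val b (LL 0)
    rw [hwind]
    intro h1
    have h2 : e * ((p : ℝ) - 1) = 0 := by linarith
    rcases mul_eq_zero.1 h2 with h3 | h3
    · exact he h3
    · linarith

/-- **Harary–Hill for even `n` from the core.** -/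
theorem hh_of_core (hp : 3 ≤ p)
    (hpair : ∀ b k : Bp.SStar C.pos, b.GP k → ∃ q : Fin (2 * p) → ℤ,
      ∑ z, |F p (Bp.SStar.tl0 G) Val z (frl G b) - F p (Bp.SStar.tl0 G) Val z (frl G k) -
        ((p : ℝ) - 1) / 2 - ((p : ℝ) - 1) * q z| ≤ b.cr k) :
    p * (p - 1) ^ 2 * (p - 2) ≤ C.total := by
  obtain ⟨ε, hε⟩ := exists_goodE C
  refine hh_top hp C hε (fun s z => F p (Bp.SStar.tl0 G) Val z (frl G s)) hpair ?_ ?_
  · intro b S S' hS z
    exact ⟨0, by rw [frl_sim G hε hS]; simp⟩
  · intro b
    exact hloop_of C G H hDg hε b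

end Vale.Agent.P040.Slot
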