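import Vale.Agent.P040.Bp.SStar

/-!
# The rotation of a spine star

`ang x` is a counterclockwise angle of the arm `x` at the centre, measured from the right: upper
arms have angles in `(0, 2)`, lower arms in `(2, 4)`. `rot` is the list of the leaves by increasing
angle.
-/

set_option autoImplicit false

namespace Vale.Agent.P040.Bp

open Topo

/-- strictly increasing along the circle `ℝ ∪ {∞}` from the right of `c` to the left of `c` -/
noncomputable def th (c p : ℝ) : ℝ := if c < p then 1 - 1 / (1 + p - c) else 1 + 1 / (1 + c - p)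

lemma th_right {c p : ℝ} (h : c < p) : 0 < th c p ∧ th c p < 1 := by
  unfold th
  rw [if_pos h]
  have h1 : 0 < 1 + p - c := by linarith
  have h2 : 1 / (1 + p - c) < 1 := by rw [div_lt_one h1]; linarith
  have h3 : 0 < 1 / (1 + p - c) := by positivity
  constructor <;> linarith

lemma th_left {c p : ℝ} (h : p < c) : 1 < th c p ∧ th c p < 2 := by
  unfold th
  rw [if_neg (not_lt.2 h.le)]
  have h1 : 0 < 1 + c - p := by linarith
  have h2 : 1 / (1 + c - p) < 1 := by rw [div_lt_one h1]; linarith
  have h3 : 0 < 1 / (1 + c - p) := by positivity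
  constructor <;> linarith

lemma th_lt_right {c p q : ℝ} (h : c < p) (h' : p < q) : th c p < th c q := by
  unfold th
  rw [if_pos h, if_pos (h.trans h')]
  have h1 : 0 < 1 + p - c := by linarith
  have : 1 / (1 + q - c) < 1 / (1 + p - c) := one_div_lt_one_div_of_lt h1 (by linarith)
  linarith

lemma th_lt_left {c p q : ℝ} (h : q < c) (h' : p < q) : th c p < th c q := by
  unfold th
  rw [if_neg (not_lt.2 (h'.trans h).le), if_neg (not_lt.2 h.le)]
  have h1 : 0 < 1 + c - q := by linarith
  have : 1 / (1 + c - p) < 1 / (1 + c - q) := one_div_lt_one_div_of_lt h1 (by linarith)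
  linarith

lemma th_pos {c p : ℝ} (h : p ≠ c) : 0 < th c p ∧ th c p < 2 := by
  rcases lt_or_gt_of_ne h with h | h
  · have := th_left h; constructor <;> linarith
  · have := th_right h; constructor <;> linarith

lemma th_inj {c p q : ℝ} (hp : p ≠ c) (hq : q ≠ c) (h : th c p = th c q) : p = q := by
  by_contra hne
  rcases lt_or_gt_of_ne hp with h1 | h1 <;> rcases lt_or_gt_of_ne hq with h2 | h2
  · rcases lt_or_gt_of_ne hne with h3 | h3
    · exact (th_lt_left h2 h3).ne h
    · exact (th_lt_left h1 h3).ne' h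
  · linarith [th_left h1, th_right h2]
  · linarith [th_left h2, th_right h1]
  · rcases lt_or_gt_of_ne hne with h3 | h3
    · exact (th_lt_right h1 h3).ne h
    · exact (th_lt_right h2 h3).ne' h

/-- the order of `th`: `q` comes after `p` on the circle from `c+` to `c-` -/
lemma th_lt_iff {c p q : ℝ} (hp : p ≠ c) (hq : q ≠ c) :
    th c p < th c q ↔ (c < p ∧ p < q) ∨ (p < q ∧ q < c) ∨ (q < c ∧ c < p) := by
  constructor
  · intro h
    rcases lt_or_gt_of_ne hp with h1 | h1 <;> rcases lt_or_gt_of_ne hq with h2 | h2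
    · rcases lt_trichotomy p q with h3 | h3 | h3
      · exact Or.inr (Or.inl ⟨h3, h2⟩)
      · subst h3; exact absurd h (lt_irrefl _)
      · exact absurd h (not_lt.2 (th_lt_left h1 h3).le)
    · linarith [th_left h1, th_right h2]
    · exact Or.inr (Or.inr ⟨h2, h1⟩)
    · rcases lt_trichotomy p q with h3 | h3 | h3
      · exact Or.inl ⟨h1, h3⟩
      · subst h3; exact absurd h (lt_irrefl _)
      · exact absurd h (not_lt.2 (th_lt_right h2 h3).le)
  · rintro (⟨h1, h2⟩ | ⟨h1, h2⟩ | ⟨h1, h2⟩)
    · exact th_lt_right h1 h2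
    · exact th_lt_left h2 h1
    · linarith [th_left h1, th_right h2]

namespace SStar

variable {m : ℕ} {leaf : Fin m → ℝ} (b : SStar leaf)

lemma p_ne_ctr {x : Fin m} {i : ℕ} (h : i ≤ (b.arm x).len) (h0 : i ≠ 0) :
    (b.arm x).p i ≠ b.ctr := by
  intro e
  rw [← b.arm_zero x] at e
  rcases b.inj x i x 0 h (Nat.zero_le _) e with ⟨-, h1⟩ | ⟨h1, -⟩ <;> exact h0 h1

lemma p_one_ne (x : Fin m) : (b.arm x).p 1 ≠ b.ctr :=
  b.p_ne_ctr (b.arm x).len_pos one_ne_zero

lemma p_one_inj {x y : Fin m} (h : (b.arm x).p 1 = (b.arm y).p 1) : x = y := by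
  rcases b.inj x 1 y 1 (b.arm x).len_pos (b.arm y).len_pos h with ⟨h1, -⟩ | ⟨h1, -⟩
  · exact h1
  · exact absurd h1 one_ne_zero

/-- counterclockwise angle of the arm `x` at the centre -/
noncomputable def ang (x : Fin m) : ℝ :=
  if (b.arm x).up then th b.ctr ((b.arm x).p 1) else 4 - th b.ctr ((b.arm x).p 1)

lemma ang_up {x : Fin m} (h : (b.arm x).up = true) : b.ang x = th b.ctr ((b.arm x).p 1) := by
  unfold ang; rw [if_pos h]

lemma ang_dn {x : Fin m} (h : (b.arm x).up = false) : b.ang x = 4 - th b.ctr ((b.arm x).p 1) := by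
  unfold ang; rw [if_neg (by simp [h])]

lemma ang_up_mem {x : Fin m} (h : (b.arm x).up = true) : 0 < b.ang x ∧ b.ang x < 2 := by
  rw [b.ang_up h]; exact th_pos (b.p_one_ne x)

lemma ang_dn_mem {x : Fin m} (h : (b.arm x).up = false) : 2 < b.ang x ∧ b.ang x < 4 := by
  rw [b.ang_dn h]
  have := th_pos (b.p_one_ne x)
  constructor <;> linarith

lemma ang_inj : Function.Injective b.ang := by
  intro x y h
  rcases hx : (b.arm x).up with _ | _ <;> rcases hy : (b.arm y).up with _ | _
  · rw [b.ang_dn hx, b.ang_dn hy] at h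
    exact b.p_one_inj (th_inj (b.p_one_ne x) (b.p_one_ne y) (by linarith))
  · linarith [b.ang_dn_mem hx, b.ang_up_mem hy]
  · linarith [b.ang_dn_mem hy, b.ang_up_mem hx]
  · rw [b.ang_up hx, b.ang_up hy] at h
    exact b.p_one_inj (th_inj (b.p_one_ne x) (b.p_one_ne y) h)

/-- the leaves in the order of the counterclockwise rotation, from the right -/
noncomputable def rot : List (Fin m) := (List.finRange m).map (Tuple.sort b.ang)

lemma mem_rot (x : Fin m) : x ∈ b.rot :=
  List.mem_map.2 ⟨(Tuple.sort b.ang).symm x, List.mem_finRange _, by simp⟩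

lemma rot_nodup : b.rot.Nodup :=
  (List.nodup_finRange m).map (Tuple.sort b.ang).injective

lemma length_rot : b.rot.length = m := by simp [rot]

lemma rot_perm : b.rot.Perm (List.finRange m) :=
  (List.perm_ext_iff_of_nodup b.rot_nodup (List.nodup_finRange m)).2
    fun x => ⟨fun _ => List.mem_finRange x, fun _ => b.mem_rot x⟩

lemma rot_pairwise : b.rot.Pairwise fun x y => b.ang x < b.ang y := by
  unfold rot
  rw [List.pairwise_map]
  refine (List.pairwise_lt_finRange m).imp ?_
  intro i j hij
  have h1 : (b.ang ∘ Tuple.sort b.ang) i ≤ (b.ang ∘ Tuple.sort b.ang) j :=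
    Tuple.monotone_sort b.ang hij.le
  refine lt_of_le_of_ne h1 ?_
  intro h
  exact hij.ne ((Tuple.sort b.ang).injective (b.ang_inj h))

end SStar

end Vale.Agent.P040.Bp
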