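import Vale.Agent.P040.H242.Dgs
import Vale.Agent.P040.H242.Wind
import Vale.Agent.P040.W.Pair

/-!
# Final assembly: `Machine` and Harary–Hill for even `n` from one geometric input

`SelInput h leaf`: labels of the gaps, values of closed curves with the properties `CoreHyp` for the
framed lists of star diagrams, and the antipode.
-/

set_option autoImplicit false

namespace Vale.Agent.P040.Pst

open Topo Bp H84 Hz

/-- the product of the loops of a spine star is trivial -/
theorem prod_loops {m : ℕ} {leaf : Fin m → ℝ} {Γ : Type} (K : Gaps leaf Γ) (hK : W.Cyc K)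
    (hm : 0 < m) (b : SStar leaf) : (b.rot.map fun x => b.loop K x).prod = 1 := by
  obtain ⟨ε, h⟩ := W.exists_eps (W.pts_finite b)
  obtain ⟨u, hu⟩ := W.exists_pot b hm (W.gl K) fun x y hx hy h => W.gl_si hK hx hy h
  have hr := W.gl_reg (K := K) h
  have hc := W.gl_ctr (K := K) h hm
  have hc' : W.gl K (b.ctr + ε) = W.gl K b.ctr := by
    have := W.gl_near (K := K) h (W.ctr_mem b hm) b.ctr_ne true
    simpa only [W.sh, if_true] using this
  have key := W.rel_ctr hm h hu hr
  rw [hc, hc'] at key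
  have e1 : (b.rot.map fun x => b.loop K x) = b.rot.map (W.lpc b ε (W.gl K)) := by
    apply List.map_congr_left
    intro x _
    exact W.loop_eq h x
  rw [e1, W.rot_eq, List.map_append, List.prod_append,
    W.map_lpc_true b ε (W.gl K) (fun y hy => W.mem_sd.1 hy),
    W.map_lpc_false b ε (W.gl K) (fun y hy => W.mem_sd.1 hy)]
  rw [← mul_assoc, ← mul_assoc, key, mul_inv_cancel]

/-- the pair inequality from `Core` and `PairPath` -/
theorem pair_of_core {h : ℕ} {leaf : Fin (2 * h) → ℝ} {G : Type} [Group G] {S : Type}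
    {tup : S → List (Fin (2 * h) × G)} {F : S → Fin (2 * h) → ℝ} {conv : SStar leaf → S}
    (C : Core h tup F) (P : PairPath tup conv) (b k : SStar leaf) (hbk : b.GP k) :
    ∃ q : Fin (2 * h) → ℤ,
      ∑ z, |F (conv b) z - F (conv k) z - ((h : ℝ) - 1) / 2 - ((h : ℝ) - 1) * q z| ≤ b.cr k := by
  obtain ⟨n, L, L', hn, h1, h2, h3⟩ := P b k hbk
  obtain ⟨s', h4, q, hq⟩ := C.path h2 (conv b) h1
  have h5 := C.anti (conv k) s' (h4.trans h3)
  choose r hr using h5
  refine ⟨fun z => q z + r z, ?_⟩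
  have hn' : (n : ℝ) ≤ (b.cr k : ℝ) := by exact_mod_cast hn
  refine le_trans (le_of_eq ?_) (hq.trans hn')
  apply Finset.sum_congr rfl
  intro z _
  rw [hr z]
  congr 1
  push_cast
  ring

/-- **The geometric input** for the leaves `leaf`. -/
def SelInput (h : ℕ) (leaf : Fin (2 * h) → ℝ) : Prop :=
  ∃ (Γ : Type) (K : Gaps leaf Γ) (Val : Fin (2 * h) → FreeGroup Γ → ℝ → Prop) (e : ℝ),
    W.Cyc K ∧ CoreHyp h (sl K) Val (Dgs leaf K) e ∧
    ∀ L L' : List (Fin (2 * h) × FreeGroup Γ), Dgs leaf K L → Dgs leaf K L' →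
      TEq (L'.map fun p => (p.1, gg (sl K) p)) (bar (L.map fun p => (p.1, gg (sl K) p))) →
      ∀ z, ∃ q : ℤ, H84.F h (sl K) Val z L' = H84.F h (sl K) Val z L + ((h : ℝ) - 1) / 2 +
        ((h : ℝ) - 1) * q

theorem dgs_frl {m : ℕ} {leaf : Fin m → ℝ} {Γ : Type} (K : Gaps leaf Γ) (hK : W.Cyc K)
    (hm : 0 < m) (s : SStar leaf) : Dgs leaf K (Slot.frl K s) :=
  dgs_spine K s (prod_loops K hK hm s)

/-- `Core` and `PairPath` for the framed lists. -/
theorem core_and_path {h : ℕ} {leaf : Fin (2 * h) → ℝ} {Γ : Type} {K : Gaps leaf Γ}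
    {Val : Fin (2 * h) → FreeGroup Γ → ℝ → Prop} {e : ℝ} (hK : W.Cyc K)
    (H : CoreHyp h (sl K) Val (Dgs leaf K) e)
    (anti : ∀ L L' : List (Fin (2 * h) × FreeGroup Γ), Dgs leaf K L → Dgs leaf K L' →
      TEq (L'.map fun p => (p.1, gg (sl K) p)) (bar (L.map fun p => (p.1, gg (sl K) p))) →
      ∀ z, ∃ q : ℤ, H84.F h (sl K) Val z L' = H84.F h (sl K) Val z L + ((h : ℝ) - 1) / 2 +
        ((h : ℝ) - 1) * q) :
    Core h (S := {L : List (Fin (2 * h) × FreeGroup Γ) // Dgs leaf K L})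
      (fun L => L.1.map fun p => (p.1, gg (sl K) p)) (fun L z => H84.F h (sl K) Val z L.1) ∧
    PairPath (fun L : {L : List (Fin (2 * h) × FreeGroup Γ) // Dgs leaf K L} =>
      L.1.map fun p => (p.1, gg (sl K) p))
      (fun s : SStar leaf => ⟨Slot.frl K s, dgs_frl K hK (by have := H.two_le; omega) s⟩) := by
  have hh := H.two_le
  refine ⟨core_of_hyp H anti, ?_⟩
  intro b k hbk
  obtain ⟨n, L, L', h1, h2, h3, h4⟩ := W.pairPath_loops K hK (by omega) hbk
  have key : ∀ s : SStar leaf, ((Slot.frl K s).map fun p => (p.1, gg (sl K) p)) =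
      s.rot.map fun x => (x, s.loop K x) := by
    intro s
    unfold Slot.frl
    rw [List.map_map]
    apply List.map_congr_left
    intro x _
    show (x, gg (sl K) (x, s.fw K x)) = (x, s.loop K x)
    rw [s.loop_eq K x]
    rfl
  refine ⟨n, L, L', h1, ?_, h3, ?_⟩
  · show TEq ((Slot.frl K b).map fun p => (p.1, gg (sl K) p)) L
    rw [key]; exact h2
  · show TEq L' (bar ((Slot.frl K k).map fun p => (p.1, gg (sl K) p)))
    rw [key]; exact h4

/-- **`Machine` from the geometric input.** -/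
theorem machine_of_input
    (I : ∀ h : ℕ, 2 ≤ h → ∀ leaf : Fin (2 * h) → ℝ, Function.Injective leaf → SelInput h leaf) :
    Machine := by
  intro h hh leaf hl
  obtain ⟨Γ, K, Val, e, hK, H, anti⟩ := I h hh leaf hl
  obtain ⟨C, P⟩ := core_and_path hK H anti
  exact ⟨fun s z => H84.F h (sl K) Val z (Slot.frl K s), fun b k hbk => pair_of_core C P b k hbk⟩

/-- **Harary–Hill for even `n` from the geometric input** (arc diagrams). -/
theorem hill_of_input
    (I : ∀ h : ℕ, 2 ≤ h → ∀ leaf : Fin (2 * h) → ℝ, Function.Injective leaf → SelInput h leaf)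
    {p : ℕ} (hp : 3 ≤ p) (C : CompDiag (2 * p)) : p * (p - 1) ^ 2 * (p - 2) ≤ C.total := by
  obtain ⟨Γ, K, Val, e, hK, H, anti⟩ := I p (by omega) C.pos C.pos_inj
  obtain ⟨Co, P⟩ := core_and_path hK H anti
  exact Slot.hh_of_core C K H (fun s => dgs_frl K hK (by omega) s) hp
    (fun b k hbk => pair_of_core Co P b k hbk)

end Vale.Agent.P040.Pst
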