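import Vale.Agent.P040.H242.Framed
import Vale.Agent.P040.H84.CoreDef

/-!
# The framed lists of planar star diagrams

`Dgs pos G L`: `L` is the framed list of a planar star diagram, and the product of its loops is
trivial. This is closed under rotation and half twists.
-/

set_option autoImplicit false

namespace Vale.Agent.P040.Pst

open Topo FreeGroup H84

variable {ι : Type*} {Γ : Type*} {pos : ι → ℝ}

/-- the small loop around the leaf `x`, from the upper side -/
def sl (G : Gaps pos Γ) (x : ι) : FreeGroup Γ := of (G.lt x) * (of (G.rt x))⁻¹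

/-- the framed list of a star diagram -/
def frm (G : Gaps pos Γ) (S : List (ι × List ℝ)) : List (ι × FreeGroup Γ) :=
  S.map fun q => (q.1, wz G q.1 q.2)

theorem gg_wz (G : Gaps pos Γ) (x : ι) (p : List ℝ) :
    gg (sl G) ((x, wz G x p) : ι × FreeGroup Γ) = lp G x p := (lp_eq G x p).symm

/-- framed lists of star diagrams with trivial product -/
def Dgs (pos : ι → ℝ) (G : Gaps pos Γ) (L : List (ι × FreeGroup Γ)) : Prop :=
  ∃ S, IsStar pos S ∧ frm G S = L ∧ pr (sl G) L = 1

theorem wz_rr (G : Gaps pos Γ) {δ : ℝ} {v u : List ℝ} (hu : u ≠ []) (x : ι) :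
    wz G x (rr δ v u) = (wd G true (sh δ v) * (wd G true (sh (-δ) v))⁻¹) * wz G x u := by
  have e1 : (rr δ v u).dropLast = sh δ v ++ ((sh (-δ) v).reverse ++ u.dropLast) := by
    rw [rr, List.dropLast_append_of_ne_nil (by simp [hu]),
      List.dropLast_append_of_ne_nil hu]
  have e2 : fl (sh δ v ++ ((sh (-δ) v).reverse ++ u.dropLast)).length true =
      fl u.dropLast.length true := by
    simp only [List.length_append, List.length_reverse, sh_length]
    rw [fl_add, fl_add, fl_fl]
  have e3 : wd G true (sh δ v ++ ((sh (-δ) v).reverse ++ u.dropLast)) =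
      wd G true (sh δ v) * (wd G true (sh (-δ) v))⁻¹ * wd G true u.dropLast := by
    rw [wd_append, wd_append, sh_length]
    have h1 : fl (sh (-δ) v).reverse.length (fl v.length true) = true := by
      rw [List.length_reverse, sh_length, fl_fl]
    have h2 : wd G (fl v.length true) (sh (-δ) v).reverse = (wd G true (sh (-δ) v))⁻¹ := by
      have := wd_reverse G true (sh (-δ) v)
      rwa [sh_length] at this
    rw [h1, h2, mul_assoc]
  unfold wz
  rw [e1, e2, e3, mul_assoc]

theorem IsStar.map_fst_nodup {S : List (ι × List ℝ)} (hS : IsStar pos S) :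
    (S.map Prod.fst).Nodup := by
  have hn := hS.nodup
  unfold pts at hn
  rw [List.nodup_flatMap] at hn
  have h2 := hn.2
  rw [List.Nodup, List.pairwise_map]
  refine h2.imp_of_mem ?_
  intro q q' hq hq' hd e
  obtain ⟨l, hl⟩ := hS.ends q hq
  obtain ⟨l', hl'⟩ := hS.ends q' hq'
  have hd' : List.Disjoint q.2 q'.2 := hd
  exact hd' (a := pos q.1) (by rw [hl]; simp) (by rw [hl', e]; simp)

theorem IsStar.length_eq [Fintype ι] {S : List (ι × List ℝ)} (hS : IsStar pos S) :
    S.length = Fintype.card ι := by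
  classical
  have h1 := hS.map_fst_nodup
  have h2 : (S.map Prod.fst).toFinset = Finset.univ := by
    ext x
    rw [List.mem_toFinset]
    simp [hS.full x]
  rw [← List.length_map (f := Prod.fst) (as := S), ← List.toFinset_card_of_nodup h1, h2,
    Finset.card_univ]

variable {G : Gaps pos Γ}

theorem Dgs.rot {p : ι × FreeGroup Γ} {L : List (ι × FreeGroup Γ)} (h : Dgs pos G (p :: L)) :
    Dgs pos G (L ++ [p]) := by
  obtain ⟨S, hS, hL, hp⟩ := h
  cases S with
  | nil => simp [frm] at hL
  | cons q S =>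
    simp only [frm, List.map_cons, List.cons.injEq] at hL
    refine ⟨S ++ [q], hS.rot, ?_, ?_⟩
    · simp [frm, ← hL.1, ← hL.2]
    · rw [pr_cons] at hp
      rw [pr_append, pr_cons, pr_nil, mul_one]
      exact mul_eq_one_comm.1 hp

theorem Dgs.len [Fintype ι] {L : List (ι × FreeGroup Γ)} (h : Dgs pos G L) :
    L.length = Fintype.card ι := by
  obtain ⟨S, hS, rfl, -⟩ := h
  unfold frm
  rw [List.length_map, hS.length_eq]

theorem Dgs.nodup {L : List (ι × FreeGroup Γ)} (h : Dgs pos G L) : (L.map Prod.fst).Nodup := by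
  obtain ⟨S, hS, rfl, -⟩ := h
  unfold frm
  rw [List.map_map]
  exact hS.map_fst_nodup

theorem Dgs.prod {L : List (ι × FreeGroup Γ)} (h : Dgs pos G L) : pr (sl G) L = 1 := by
  obtain ⟨-, -, -, hp⟩ := h
  exact hp

theorem Dgs.tw {p q : ι × FreeGroup Γ} {L : List (ι × FreeGroup Γ)}
    (h : Dgs pos G (p :: q :: L)) : Dgs pos G ((q.1, gg (sl G) p * q.2) :: p :: L) := by
  obtain ⟨S, hS, hL, hp⟩ := h
  rcases S with _ | ⟨⟨x, v⟩, _ | ⟨⟨y, u⟩, R⟩⟩
  · simp [frm] at hL
  · simp [frm] at hL
  · simp only [frm, List.map_cons, List.cons.injEq] at hL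
    obtain ⟨rfl, rfl, rfl⟩ := hL
    obtain ⟨ε, h0, hε⟩ := exists_sepd (pts ((x, v) :: (y, u) :: R))
    refine ⟨_, hS.tw h0 hε, ?_, ?_⟩
    · have hnu : u ≠ [] := hS.arm_ne_nil (q := (y, u)) (by simp)
      have h1 := hS.wd_around G hε h0 (q := (x, v)) (by simp)
      have h' : wd G true (sh (-ε) v) * (wd G true (sh ε v))⁻¹ = lp G x v := by
        have := congrArg (·⁻¹) h1
        simpa using this
      simp only [frm, List.map_cons]
      rw [wz_rr G hnu, neg_neg, h', gg_wz]
    · rw [pr_cons, pr_cons] at hp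
      rw [pr_cons, pr_cons]
      simp only [gg] at hp ⊢
      rw [← hp]
      group

theorem Dgs.tw' {p q : ι × FreeGroup Γ} {L : List (ι × FreeGroup Γ)}
    (h : Dgs pos G (p :: q :: L)) : Dgs pos G (q :: (p.1, (gg (sl G) q)⁻¹ * p.2) :: L) := by
  obtain ⟨S, hS, hL, hp⟩ := h
  rcases S with _ | ⟨⟨x, u⟩, _ | ⟨⟨y, v⟩, R⟩⟩
  · simp [frm] at hL
  · simp [frm] at hL
  · simp only [frm, List.map_cons, List.cons.injEq] at hL
    obtain ⟨rfl, rfl, rfl⟩ := hL
    obtain ⟨ε, h0, hε⟩ := exists_sepd (pts ((x, u) :: (y, v) :: R))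
    refine ⟨_, hS.tw' h0 hε, ?_, ?_⟩
    · have hnu : u ≠ [] := hS.arm_ne_nil (q := (x, u)) (by simp)
      have h1 := hS.wd_around G hε h0 (q := (y, v)) (by simp)
      simp only [frm, List.map_cons]
      rw [wz_rr G hnu, h1, gg_wz]
    · rw [pr_cons, pr_cons] at hp
      rw [pr_cons, pr_cons]
      simp only [gg] at hp ⊢
      rw [← hp]
      group

/-- the converted spine star -/
theorem dgs_spine {m : ℕ} {leaf : Fin m → ℝ} (G : Gaps leaf Γ) (s : Bp.SStar leaf)
    (hp : (s.rot.map fun x => s.loop G x).prod = 1) :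
    Dgs leaf G (s.rot.map fun x => (x, s.fw G x)) := by
  obtain ⟨ε, hε⟩ := s.exists_small
  refine ⟨s.hub ε, Bp.SStar.isStar_hub hε, ?_, ?_⟩
  · unfold frm
    exact Bp.SStar.hub_framed G hε
  · unfold pr
    rw [List.map_map, ← hp]
    congr 1
    apply List.map_congr_left
    intro x _
    exact (s.loop_eq G x).symm

end Vale.Agent.P040.Pst
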