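import Vale.Agent.P040.H105.Tup
import Vale.Agent.P040.H105.Dbl

/-!
# The word of a doubled sub-star

`dbl ε T` read from the right copy `pos z + ε` of the leaf `z` (where the curve crosses the spine
upwards, whatever the page of arrival of the arm `z` is): the rest of the closed path has the word
`w⁻¹ * (product of the loops of the other arms) * w * of (lt z)`, `w = wz G z p` the word of the arm
to the upper side of the leaf.
-/

set_option autoImplicit false

namespace Vale.Agent.P040.Pst

open Topo FreeGroup

variable {ι : Type*} {Γ : Type*} {pos : ι → ℝ}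

lemma fl_even {n : ℕ} (h : Even n) (b : Bool) : fl n b = b := by
  obtain ⟨k, rfl⟩ := h
  rw [fl_add, fl_fl]

lemma even_of_fl {n : ℕ} (h : fl n true = true) : Even n := by
  by_contra h1
  obtain ⟨k, rfl⟩ := Nat.not_even_iff_odd.1 h1
  rw [fl_succ, fl_even (even_two_mul k)] at h
  simp at h

lemma odd_of_fl {n : ℕ} (h : fl n true = false) : Odd n := by
  rw [← Nat.not_even_iff_odd]
  intro h1
  rw [fl_even h1] at h
  simp at h

lemma fl_dbl (ε : ℝ) (T : List (ι × List ℝ)) (b : Bool) : fl (dbl ε T).length b = b :=
  fl_even (dbl_length_even ε T) b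

/-- the word of the arm `z` to the upper side of the leaf -/
def wz (G : Gaps pos Γ) (z : ι) (p : List ℝ) : FreeGroup Γ :=
  wd G true p.dropLast * (if fl p.dropLast.length true then 1 else (of (G.lt z))⁻¹)

/-- the loop of an arm is the conjugate of `of lt * (of rt)⁻¹` by `wz` -/
lemma lp_eq (G : Gaps pos Γ) (z : ι) (p : List ℝ) :
    lp G z p = wz G z p * (of (G.lt z) * (of (G.rt z))⁻¹) * (wz G z p)⁻¹ := by
  unfold lp wz
  cases h : fl p.dropLast.length true
  · simp only [tip, if_false, Bool.false_eq_true]
    group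
  · simp only [tip, if_true, mul_one]

variable {S : List (ι × List ℝ)}

/-- the word out and back along one arm -/
lemma IsStar.wd_arm (hS : IsStar pos S) (G : Gaps pos Γ) {ε : ℝ} (hε : Sepd ε (pts S))
    (h0 : 0 < ε) {q : ι × List ℝ} (hq : q ∈ S) :
    wd G true (sh (-ε) q.2 ++ (sh ε q.2).reverse) = lp G q.1 q.2 := by
  have h := hS.wd_around G hε h0 hq
  have h1 := wd_reverse G true (sh ε q.2)
  rw [wd_append]
  rw [sh_length] at h1 ⊢
  rw [h1]
  have h2 := congrArg (·⁻¹) h
  simpa using h2

/-- the word of the doubled sub-star -/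
theorem IsStar.wd_dbl (hS : IsStar pos S) (G : Gaps pos Γ) {ε : ℝ} (hε : Sepd ε (pts S))
    (h0 : 0 < ε) (T : List (ι × List ℝ)) (hT : ∀ q ∈ T, q ∈ S) :
    wd G true (dbl ε T) = (T.map fun q => lp G q.1 q.2).prod := by
  induction T with
  | nil => rw [dbl_nil]; rfl
  | cons q T ih =>
    rw [dbl_cons, ← List.append_assoc, wd_append, hS.wd_arm G hε h0 (hT q (by simp)),
      List.map_cons, List.prod_cons]
    congr 1
    have : fl (sh (-ε) q.2 ++ (sh ε q.2).reverse).length true = true := by
      rw [List.length_append, List.length_reverse, sh_length, sh_length, fl_add, fl_fl]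
    rw [this]
    exact ih fun q hq => hT q (List.mem_cons_of_mem _ hq)

/-- the closed path `dbl ε ((z, p) :: U)` read from `pos z + ε`, without this point -/
def rest (ε : ℝ) (p : List ℝ) (U : List (ι × List ℝ)) : List ℝ :=
  if fl p.dropLast.length true then (sh ε p).reverse.tail ++ (dbl ε U ++ sh (-ε) p)
  else (sh ε p).reverse ++ (dbl ε U ++ (sh (-ε) p).dropLast)

/-- the place of `pos z + ε` -/
def idx (p : List ℝ) : ℕ := if fl p.dropLast.length true then p.length else p.length - 1

lemma odd_idx {p : List ℝ} (hp : p ≠ []) : Odd (idx p) := by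
  unfold idx
  have hl : p.dropLast.length + 1 = p.length := by
    rw [List.length_dropLast]
    have := List.length_pos_iff.2 hp
    omega
  cases h : fl p.dropLast.length true
  · rw [if_neg (by simp), ← hl, Nat.add_sub_cancel]
    exact odd_of_fl h
  · rw [if_pos rfl, ← hl]
    exact (even_of_fl h).add_one

/-- rotating the doubled sub-star to `pos z + ε` -/
theorem dbl_rotate {ε : ℝ} {z : ι} {p l : List ℝ} (hp : p = l ++ [pos z])
    (A B : List (ι × List ℝ)) :
    (dbl ε (A ++ (z, p) :: B)).rotate ((dbl ε A).length + idx p) =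
      (pos z + ε) :: rest ε p (B ++ A) := by
  have e1 : p.dropLast = l := by rw [hp]; simp
  have e2 : ∀ δ, sh δ p = sh δ l ++ [pos z + sg l.length δ] := by
    intro δ
    rw [hp, sh_append, sh_cons, sh_nil]
  have hlen : p.length = l.length + 1 := by rw [hp]; simp
  have key : ∀ X Y Z : List ℝ, ∀ k, dbl ε (A ++ (z, p) :: B) = X ++ Y → X.length = k → Y ++ X = Z →
      (dbl ε (A ++ (z, p) :: B)).rotate k = Z := by
    intro X Y Z k h1 h2 h3
    rw [h1, ← h2, List.rotate_append_length_eq, h3]
  rcases h : fl l.length true with _ | _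
  · have e3 : sg l.length (-ε) = ε := by rw [sg_eq, h]; simp
    have e4 : sg l.length ε = -ε := by rw [sg_eq, h]; simp
    apply key (dbl ε A ++ sh (-ε) l)
      ((pos z + ε) :: ((sh ε p).reverse ++ dbl ε B))
    · rw [dbl_append, dbl_cons]
      simp only
      rw [e2 (-ε), e3]
      simp
    · unfold idx
      rw [e1, h, if_neg (by simp), hlen]
      simp
    · unfold rest
      rw [e1, h, if_neg (by simp), e2 (-ε), List.dropLast_concat, dbl_append]
      simp
  · have e3 : sg l.length (-ε) = -ε := by rw [sg_eq, h]; simp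
    have e4 : sg l.length ε = ε := by rw [sg_eq, h]; simp
    apply key (dbl ε A ++ sh (-ε) p)
      ((pos z + ε) :: ((sh ε l).reverse ++ dbl ε B))
    · rw [dbl_append, dbl_cons]
      simp only
      rw [e2 ε, e4]
      simp
    · unfold idx
      rw [e1, h, if_pos rfl]
      simp
    · unfold rest
      rw [e1, h, if_pos rfl, e2 ε, e4, dbl_append]
      simp

/-- **The word of the doubled sub-star read from the leaf `z`.** -/
theorem IsStar.wd_rest (hS : IsStar pos S) (G : Gaps pos Γ) {ε : ℝ} (hε : Sepd ε (pts S))
    (h0 : 0 < ε) {z : ι} {p : List ℝ} (hz : (z, p) ∈ S) (U : List (ι × List ℝ))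
    (hU : ∀ q ∈ U, q ∈ S) :
    wd G true (rest ε p U) =
      (wz G z p)⁻¹ * (U.map fun q => lp G q.1 q.2).prod * wz G z p * of (G.lt z) := by
  obtain ⟨l, hl⟩ := hS.ends (z, p) hz
  simp only at hl
  have e1 : p.dropLast = l := by rw [hl]; simp
  have e2 : ∀ δ, sh δ p = sh δ l ++ [pos z + sg l.length δ] := by
    intro δ
    rw [hl, sh_append, sh_cons, sh_nil]
  have habs : |ε| = ε := abs_of_pos h0
  have w1 : ∀ δ, |δ| = ε → wd G true (sh δ l) = wd G true l := fun δ hδ =>
    wd_sh G (fun a ha σ hσ => hS.gap_const G hε hz hl ha (hσ.trans hδ.le)) true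
  have w2 := wd_reverse G true (sh ε l)
  rw [w1 ε habs, sh_length] at w2
  have w3 := w1 (-ε) (by rw [abs_neg, habs])
  have hd := hS.wd_dbl G hε h0 U hU
  rcases h : fl l.length true with _ | _
  · have e3 : sg l.length (-ε) = ε := by rw [sg_eq, h]; simp
    have e4 : sg l.length ε = -ε := by rw [sg_eq, h]; simp
    unfold rest wz
    rw [e1, h, if_neg (by simp), if_neg (by simp), e2 (-ε), List.dropLast_concat, e2 ε, e4,
      List.reverse_append, List.reverse_singleton, List.singleton_append, List.cons_append, wd,
      wd_append, wd_append, fl_dbl]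
    rw [h] at w2
    have e5 : fl (sh ε l).reverse.length (!true) = true := by
      rw [List.length_reverse, sh_length]
      show fl l.length false = true
      rw [← h, fl_fl]
    rw [e5, hd, w3, ← sub_eq_add_neg, hS.gap_lt G hε h0 le_rfl]
    show cl true (G.lt z) * (wd G false (sh ε l).reverse * _) = _
    rw [w2]
    simp only [cl, if_true]
    group
  · have e3 : sg l.length (-ε) = -ε := by rw [sg_eq, h]; simp
    have e4 : sg l.length ε = ε := by rw [sg_eq, h]; simp
    unfold rest wz
    rw [e1, h, if_pos rfl, if_pos rfl, mul_one, e2 (-ε), e2 ε, e3, List.reverse_append,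
      List.reverse_singleton, List.singleton_append, List.tail_cons, wd_append, wd_append,
      wd_append, fl_dbl]
    have e5 : fl (sh ε l).reverse.length true = true := by
      rw [List.length_reverse, sh_length]; exact h
    rw [h] at w2
    rw [e5, hd, w3, w2, sh_length, h, wd, wd, ← sub_eq_add_neg, hS.gap_lt G hε h0 le_rfl]
    simp only [cl, if_true]
    group

end Vale.Agent.P040.Pst
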