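import Vale.Agent.P040.H242.ConvWord
import Vale.Agent.P040.H242.DblWord

/-!
# Framed words of a spine star
-/

set_option autoImplicit false

namespace Vale.Agent.P040.Bp.SStar

open Topo Pst

variable {m : ℕ} {leaf : Fin m → ℝ} (b : SStar leaf) {Γ : Type*} (G : Gaps leaf Γ)

/-- the word of the arm `x` from the point just above the centre to the upper side of the leaf -/
noncomputable def fw (x : Fin m) : FreeGroup Γ :=
  b.aw G x * (if b.lastPage x then 1 else (FreeGroup.of (G.lt x))⁻¹)

/-- the small loop around the leaf `x`, from the upper side -/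
def tl0 {pos : Fin m → ℝ} (G : Gaps pos Γ) (x : Fin m) : FreeGroup Γ :=
  FreeGroup.of (G.lt x) * (FreeGroup.of (G.rt x))⁻¹

lemma loop_eq (x : Fin m) : b.loop G x = b.fw G x * tl0 G x * (b.fw G x)⁻¹ := by
  unfold loop fw tl0
  cases b.lastPage x
  · simp only [tip, if_false, Bool.false_eq_true]
    group
  · simp only [tip, if_true, mul_one]

variable {b} {ε : ℝ}

lemma wz_path (h : b.Small ε) (x : Fin m) : wz G x (b.path ε x) = b.fw G x := by
  have h1 : wd G true (b.path ε x).dropLast = b.aw G x := by
    unfold path aw
    rcases hx : (b.arm x).up with _ | _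
    · rw [if_neg (by simp), if_neg (by simp), List.dropLast_cons_of_ne_nil (b.tl_ne_nil x)]
      show cl true (G.gap (b.xp ε x)) * wd G false (b.tl x).dropLast = _
      rw [gap_xp G h hx]
      rfl
    · rw [if_pos rfl, if_pos rfl, one_mul]
  have h2 : fl (b.path ε x).dropLast.length true = b.lastPage x := by
    unfold lastPage
    rw [page_eq_fl]
    unfold path
    rcases hx : (b.arm x).up with _ | _
    · rw [if_neg (by simp), List.dropLast_cons_of_ne_nil (b.tl_ne_nil x), List.length_cons,
        List.length_dropLast, length_tl]
      have := (b.arm x).len_pos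
      rfl
    · rw [if_pos rfl, List.length_dropLast, length_tl]
  unfold wz fw
  rw [h1, h2]

/-- the framed list of the converted star -/
theorem hub_framed (h : b.Small ε) :
    ((b.hub ε).map fun q => (q.1, wz G q.1 q.2)) = b.rot.map fun x => (x, b.fw G x) := by
  unfold hub
  rw [List.map_map]
  apply List.map_congr_left
  intro x _
  show (x, wz G x (b.path ε x)) = (x, b.fw G x)
  rw [wz_path G h]

end Vale.Agent.P040.Bp.SStar
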