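import Vale.Agent.P040.H242.SlotRot
import Vale.Agent.P040.H242.Framed

/-!
# The framed words of a slot star
-/

set_option autoImplicit false

namespace Vale.Agent.P040.Slot

open Topo HH Pst

variable {n : ℕ} {C : CompDiag n} {b : Fin n} {Γ : Type*} (G : Gaps C.pos Γ)

omit G in
theorem wd_congr (G : Gaps C.pos Γ) {l l' : List ℝ} (h : l.map G.gap = l'.map G.gap) (d : Bool) :
    wd G d l = wd G d l' := by
  induction l generalizing l' d with
  | nil =>
    cases l' with
    | nil => rfl
    | cons a l' => simp at h
  | cons a l ih =>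
    cases l' with
    | nil => simp at h
    | cons a' l' =>
      simp only [List.map_cons, List.cons.injEq] at h
      rw [wd, wd, h.1, ih h.2]

/-- the loop of the own arm -/
def ow (b : Fin n) : FreeGroup Γ := FreeGroup.of (G.lt b) * (FreeGroup.of (G.rt b))⁻¹

/-- the natural word of the edge `bx`, from a point just to the right of `b` and above the spine -/
noncomputable def nw (b x : Fin n) : FreeGroup Γ :=
  (if (C.arm b x).up then 1 else FreeGroup.of (G.rt b)) *
    wd G (C.arm b x).up ((List.range ((C.arm b x).len - 1)).map fun j => (C.arm b x).p (j + 1))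

/-- the framed natural word, for the slot before all arms -/
noncomputable def fw0 (b x : Fin n) : FreeGroup Γ :=
  (if (C.arm b x).up then (ow G b)⁻¹ else 1) *
    (nw G b x * (if (C.arm b x).page ((C.arm b x).len - 1) then 1
      else (FreeGroup.of (G.lt x))⁻¹))

theorem dropLast_range_map {α : Type*} (k : ℕ) (f : ℕ → α) :
    ((List.range k).map f).dropLast = (List.range (k - 1)).map f := by
  cases k with
  | zero => rfl
  | succ k => rw [List.range_succ, List.map_append]; simp

namespace Slt

variable (S : Slt C b) {ε : ℝ}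

theorem gap_int (h : GoodE C ε) {x : Fin n} (hx : x ≠ b) {j : ℕ} (h0 : 0 < j)
    (hj : j < (C.arm b x).len) : G.gap (val ε (S.ept x j)) = G.gap ((C.arm b x).p j) := by
  have hP := p_mem_PP (C := C) (b := b) (x := x) hj.le
  have ht := S.tg_mem x j
  have e : val ε (S.ept x j) = (C.arm b x).p j + ε * S.tg x j := rfl
  have key : ∀ y, (C.pos y < (C.arm b x).p j → C.pos y < (C.arm b x).p j + ε * S.tg x j) ∧
      ((C.arm b x).p j < C.pos y → (C.arm b x).p j + ε * S.tg x j < C.pos y) := by
    intro y
    constructor
    · intro hy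
      have := h.2 _ (pos_mem_PP y) _ hP 0 zero_mem_TT _ ht hy
      linarith
    · intro hy
      have := h.2 _ hP _ (pos_mem_PP y) _ ht 0 zero_mem_TT hy
      linarith
  have hne : ∀ y, (C.arm b x).p j ≠ C.pos y := fun y =>
    C.int_ne_pos b x hx.symm j h0 hj y
  rw [e]
  rcases le_total 0 (ε * S.tg x j) with h1 | h1
  · refine (G.const _ _ (by linarith) ?_).symm
    intro y hy
    have := (key y).2 (lt_of_le_of_ne hy.1 (hne y))
    linarith [hy.2]
  · refine G.const _ _ (by linarith) ?_
    intro y hy
    have := (key y).1 (lt_of_le_of_ne hy.2 (hne y).symm)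
    linarith [hy.1]

theorem gap_hub (h : GoodE C ε) : G.gap (val ε S.hub) = G.rt b := by
  have e : val ε S.hub = C.pos b + ε * 1 := rfl
  refine G.right b _ (by rw [e]; linarith [h.1]) ?_
  intro y hy
  have := h.2 _ (pos_mem_PP b) _ (pos_mem_PP y) 1 one_mem_TT 0 zero_mem_TT hy.1
  rw [e] at hy
  linarith [hy.2]

theorem gap_wr (h : GoodE C ε) {x : Fin n} (hx : x ≠ b) (hw : S.wr x) :
    G.gap (val ε (S.ept x 0)) = G.lt b := by
  have e : val ε (S.ept x 0) = C.pos b + ε * (- Real.exp (ky C b x)) := by
    rw [ept_zero hx, S.st_wr hw]; rfl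
  have h1 := mul_pos h.1 (Real.exp_pos (ky C b x))
  refine G.left b _ (by rw [e]; linarith) ?_
  intro y hy
  have := h.2 _ (pos_mem_PP y) _ (pos_mem_PP b) 0 zero_mem_TT _ (exp_mem_TT (b := b) x) hy.2
  rw [e] at hy
  linarith [hy.1]

variable (hε : GoodE C ε)

include hε in
/-- the letters of the interior points -/
theorem wd_int {x : Fin n} (hx : x ≠ b) (d : Bool) :
    wd G d ((List.range ((C.arm b x).len - 1)).map fun j => val ε (S.ept x (j + 1))) =
      wd G d ((List.range ((C.arm b x).len - 1)).map fun j => (C.arm b x).p (j + 1)) := by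
  apply wd_congr
  rw [List.map_map, List.map_map]
  apply List.map_congr_left
  intro j hj
  have hj' := List.mem_range.1 hj
  exact S.gap_int G hε hx (Nat.succ_pos j) (by omega)

theorem aw_own : (S.star hε).aw G b = 1 := by
  classical
  have h1 : ((S.star hε).arm b).up = true := S.up_own
  have h2 : ((S.star hε).arm b).len = 1 := by show S.len b = 1; simp [len]
  unfold Bp.SStar.aw Bp.SStar.tl
  rw [h1, if_pos rfl, one_mul, h2]
  rfl

theorem fw_own : (S.star hε).fw G b = 1 := by
  classical
  have h1 : ((S.star hε).arm b).up = true := S.up_own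
  have h2 : ((S.star hε).arm b).len = 1 := by show S.len b = 1; simp [len]
  have h3 : (S.star hε).lastPage b = true := by
    unfold Bp.SStar.lastPage
    rw [h2, Nat.sub_self, Arm.page_zero, h1]
  unfold Bp.SStar.fw
  rw [S.aw_own G hε, h3, if_pos rfl, mul_one]

theorem aw_direct {x : Fin n} (hx : x ≠ b) (hw : ¬ S.wr x) : (S.star hε).aw G x = nw G b x := by
  classical
  have h1 : ((S.star hε).arm x).up = (C.arm b x).up := by show S.up x = _; simp [up, hx, hw]
  have h2 : ((S.star hε).arm x).len = (C.arm b x).len := by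
    show S.len x = _; simp [len, hx, om, hw]
  have h3 : ((S.star hε).tl x).dropLast =
      (List.range ((C.arm b x).len - 1)).map fun j => val ε (S.ept x (j + 1)) := by
    unfold Bp.SStar.tl
    rw [dropLast_range_map, h2]
    apply List.map_congr_left
    intro j _
    show val ε (S.lpt x (j + 1)) = _
    simp [lpt, hx, hw]
  unfold Bp.SStar.aw nw
  rw [h1, h3, S.wd_int G hε hx]
  congr 2
  show FreeGroup.of (G.gap (val ε S.hub)) = _
  rw [S.gap_hub G hε]

theorem aw_wrapped {x : Fin n} (hx : x ≠ b) (hw : S.wr x) :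
    (S.star hε).aw G x = (if (C.arm b x).up then (ow G b)⁻¹ else ow G b) * nw G b x := by
  classical
  have h1 : ((S.star hε).arm x).up = !(C.arm b x).up := by show S.up x = _; simp [up, hx, hw]
  have h2 : ((S.star hε).arm x).len = (C.arm b x).len + 1 := by
    show S.len x = _; simp [len, hx, om, hw]
  have hlen := (C.arm b x).len_pos
  have h3 : ((S.star hε).tl x).dropLast = val ε (S.ept x 0) ::
      (List.range ((C.arm b x).len - 1)).map fun j => val ε (S.ept x (j + 1)) := by
    unfold Bp.SStar.tl
    rw [dropLast_range_map, h2, Nat.add_sub_cancel]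
    have e : (fun j => ((S.star hε).arm x).p (j + 1)) = fun j => val ε (S.ept x j) := by
      funext j
      show val ε (S.lpt x (j + 1)) = _
      simp [lpt, hx, hw]
    rw [e]
    obtain ⟨k, hk⟩ : ∃ k, (C.arm b x).len = k + 1 := ⟨(C.arm b x).len - 1, by omega⟩
    rw [hk, List.range_succ_eq_map, List.map_cons, List.map_map]
    rfl
  have h4 : G.gap (S.star hε).ctr = G.rt b := S.gap_hub G hε
  unfold Bp.SStar.aw nw ow
  rw [h1, h3, wd, S.gap_wr G hε hx hw, Bool.not_not, S.wd_int G hε hx, h4]
  rcases (C.arm b x).up with _ | _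
  · simp only [Bool.not_false, if_true, if_false, Bool.false_eq_true, cl]
    group
  · simp only [Bool.not_true, if_true, if_false, Bool.false_eq_true, cl]
    group

theorem lastPage_eq {x : Fin n} (hx : x ≠ b) :
    (S.star hε).lastPage x = (C.arm b x).page ((C.arm b x).len - 1) := by
  classical
  unfold Bp.SStar.lastPage
  have hlen := (C.arm b x).len_pos
  by_cases hw : S.wr x
  · have h1 : ((S.star hε).arm x).up = !(C.arm b x).up := by show S.up x = _; simp [up, hx, hw]
    have h2 : ((S.star hε).arm x).len = (C.arm b x).len + 1 := by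
      show S.len x = _; simp [len, hx, om, hw]
    rw [h2, Nat.add_sub_cancel]
    obtain ⟨k, hk⟩ : ∃ k, (C.arm b x).len = k + 1 := ⟨(C.arm b x).len - 1, by omega⟩
    rw [hk, Nat.add_sub_cancel]
    exact page_shift h1 k
  · have h1 : ((S.star hε).arm x).up = (C.arm b x).up := by show S.up x = _; simp [up, hx, hw]
    have h2 : ((S.star hε).arm x).len = (C.arm b x).len := by
      show S.len x = _; simp [len, hx, om, hw]
    rw [h2]
    exact page_same h1 _

/-- **The framed words of a slot star.** -/
theorem fw_eq {x : Fin n} (hx : x ≠ b) [Decidable (x ∈ S.B)] :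
    (S.star hε).fw G x = if x ∈ S.B then ow G b * fw0 G b x else fw0 G b x := by
  unfold Bp.SStar.fw fw0
  rw [S.lastPage_eq hε hx]
  by_cases hB : x ∈ S.B
  · rw [if_pos hB]
    by_cases hu : (C.arm b x).up = true
    · rw [S.aw_direct G hε hx (by rw [S.wr_mem hB]; tauto), if_pos hu]
      group
    · rw [S.aw_wrapped G hε hx ((S.wr_mem hB).2 hu), if_neg hu, if_neg hu]
      group
  · rw [if_neg hB]
    by_cases hu : (C.arm b x).up = true
    · rw [S.aw_wrapped G hε hx ((S.wr_notMem hB).2 hu), if_pos hu, if_pos hu]
      group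
    · rw [S.aw_direct G hε hx (by rw [S.wr_notMem hB]; tauto), if_neg hu]
      group

/-- **The framed list of a slot star.** -/
theorem star_framed : ((S.star hε).rot.map fun x => (x, (S.star hε).fw G x)) =
    (S.bef.map fun x => (x, ow G b * fw0 G b x)) ++ (b, 1) :: S.aft.map fun x => (x, fw0 G b x) := by
  classical
  rw [S.star_rot hε, List.map_append, List.map_cons, S.fw_own G hε]
  congr 1
  · apply List.map_congr_left
    intro x hx
    have h := S.mem_bef.1 hx
    rw [S.fw_eq G hε h.1, if_pos h.2]
  · congr 1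
    apply List.map_congr_left
    intro x hx
    have h := S.mem_aft.1 hx
    rw [S.fw_eq G hε h.1, if_neg h.2]

end Slt

end Vale.Agent.P040.Slot
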