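import Vale.Agent.P040.H242.Rot
import Vale.Agent.P040.H105.Star

/-!
# From a spine star to a star with the centre inside the upper page

The centre is moved slightly into the upper page; the arms which start in the lower page get one
more point, immediately to the left of the old centre.
-/

set_option autoImplicit false

namespace Vale.Agent.P040.Bp.SStar

open Topo Pst

variable {m : ℕ} {leaf : Fin m → ℝ} (b : SStar leaf)

/-- the extra point of a lower arm -/
noncomputable def xp (ε : ℝ) (x : Fin m) : ℝ := b.ctr + ε / 2 * (b.ang x - 4)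

/-- the points `p 1, …, p len` -/
def tl (x : Fin m) : List ℝ := (List.range (b.arm x).len).map fun j => (b.arm x).p (j + 1)

/-- the path of the arm `x` from the new centre -/
noncomputable def path (ε : ℝ) (x : Fin m) : List ℝ :=
  if (b.arm x).up then b.tl x else b.xp ε x :: b.tl x

/-- the star with the centre inside the upper page -/
noncomputable def hub (ε : ℝ) : List (Fin m × List ℝ) := b.rot.map fun x => (x, b.path ε x)

/-- `ε` is small: no point of the star in `[ctr - ε, ctr)` -/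
def Small (ε : ℝ) : Prop :=
  0 < ε ∧ ∀ x j, j ≤ (b.arm x).len → ¬ (b.ctr - ε ≤ (b.arm x).p j ∧ (b.arm x).p j < b.ctr)

lemma Small.mono {ε ε' : ℝ} (h : b.Small ε) (h0 : 0 < ε') (h1 : ε' ≤ ε) : b.Small ε' :=
  ⟨h0, fun x j hj hh => h.2 x j hj ⟨by linarith [hh.1], hh.2⟩⟩

lemma exists_small : ∃ ε, b.Small ε := by
  classical
  -- the finite set of points to the left of the centre
  let F : Finset ℝ := (Finset.univ : Finset (Fin m)).biUnion fun x =>
    (Finset.range ((b.arm x).len + 1)).image (b.arm x).p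
  let F' : Finset ℝ := F.filter (· < b.ctr)
  rcases F'.eq_empty_or_nonempty with he | hne
  · refine ⟨1, one_pos, ?_⟩
    intro x j hj hh
    have : (b.arm x).p j ∈ F' := by
      refine Finset.mem_filter.2 ⟨Finset.mem_biUnion.2 ⟨x, Finset.mem_univ _,
        Finset.mem_image.2 ⟨j, Finset.mem_range.2 (by omega), rfl⟩⟩, hh.2⟩
    rw [he] at this
    simp at this
  · have hM := F'.max'_mem hne
    have hlt : F'.max' hne < b.ctr := (Finset.mem_filter.1 hM).2
    refine ⟨(b.ctr - F'.max' hne) / 2, by linarith, ?_⟩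
    intro x j hj hh
    have : (b.arm x).p j ∈ F' := by
      refine Finset.mem_filter.2 ⟨Finset.mem_biUnion.2 ⟨x, Finset.mem_univ _,
        Finset.mem_image.2 ⟨j, Finset.mem_range.2 (by omega), rfl⟩⟩, hh.2⟩
    have := F'.le_max' _ this
    linarith [hh.1]

variable {b} {ε : ℝ}

lemma xp_mem (h : b.Small ε) {x : Fin m} (hx : (b.arm x).up = false) :
    b.ctr - ε < b.xp ε x ∧ b.xp ε x < b.ctr := by
  unfold xp
  have h1 := b.ang_dn_mem hx
  have h0 := h.1
  constructor <;> nlinarith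

lemma mem_tl {x : Fin m} {p : ℝ} : p ∈ b.tl x ↔ ∃ j, 1 ≤ j ∧ j ≤ (b.arm x).len ∧
    p = (b.arm x).p j := by
  unfold tl
  constructor
  · intro h
    obtain ⟨j, hj, rfl⟩ := List.mem_map.1 h
    exact ⟨j + 1, by omega, by have := List.mem_range.1 hj; omega, rfl⟩
  · rintro ⟨j, h1, h2, rfl⟩
    refine List.mem_map.2 ⟨j - 1, List.mem_range.2 (by omega), ?_⟩
    rw [Nat.sub_add_cancel h1]

lemma mem_path {x : Fin m} {p : ℝ} : p ∈ b.path ε x ↔ (∃ j, 1 ≤ j ∧ j ≤ (b.arm x).len ∧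
    p = (b.arm x).p j) ∨ ((b.arm x).up = false ∧ p = b.xp ε x) := by
  unfold path
  rcases hx : (b.arm x).up with _ | _
  · rw [if_neg (by simp), List.mem_cons, mem_tl, or_comm]
    simp
  · rw [if_pos rfl, mem_tl]
    simp

lemma tl_nodup (x : Fin m) : (b.tl x).Nodup := by
  unfold tl
  refine (List.nodup_range).map_on ?_
  intro i hi j hj hij
  have hi := List.mem_range.1 hi
  have hj := List.mem_range.1 hj
  rcases b.inj x (i + 1) x (j + 1) (by omega) (by omega) hij with ⟨-, h1⟩ | ⟨h1, -⟩ <;> omega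

/-- the first point -/
noncomputable def fp (b : SStar leaf) (ε : ℝ) (x : Fin m) : ℝ :=
  if (b.arm x).up then (b.arm x).p 1 else b.xp ε x

lemma headI_path (x : Fin m) : (b.path ε x).headI = b.fp ε x := by
  unfold path fp
  rcases hx : (b.arm x).up with _ | _
  · rw [if_neg (by simp), if_neg (by simp)]; rfl
  · rw [if_pos rfl, if_pos rfl]
    unfold tl
    obtain ⟨n, hn⟩ : ∃ n, (b.arm x).len = n + 1 := ⟨(b.arm x).len - 1, by
      have := (b.arm x).len_pos; omega⟩
    rw [hn, List.range_succ_eq_map]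
    rfl

lemma xp_ne (h : b.Small ε) {x y : Fin m} (hx : (b.arm x).up = false) {j : ℕ}
    (hj : j ≤ (b.arm y).len) : b.xp ε x ≠ (b.arm y).p j := by
  intro e
  have := xp_mem h hx
  exact h.2 y j hj ⟨by linarith, by linarith⟩

lemma xp_inj (h : b.Small ε) {x y : Fin m} (e : b.xp ε x = b.xp ε y) : x = y := by
  apply b.ang_inj
  unfold xp at e
  have h0 := h.1
  have h1 : ε / 2 * (b.ang x - b.ang y) = 0 := by linarith
  rcases mul_eq_zero.1 h1 with h2 | h2
  · linarith
  · linarith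

lemma xp_lt (h : b.Small ε) {x y : Fin m} (e : b.ang x < b.ang y) : b.xp ε x < b.xp ε y := by
  unfold xp
  have h0 := h.1
  nlinarith

lemma path_nodup (h : b.Small ε) (x : Fin m) : (b.path ε x).Nodup := by
  unfold path
  rcases hx : (b.arm x).up with _ | _
  · rw [if_neg (by simp), List.nodup_cons]
    refine ⟨?_, tl_nodup x⟩
    intro hm
    obtain ⟨j, -, h2, h3⟩ := mem_tl.1 hm
    exact xp_ne h hx h2 h3
  · rw [if_pos rfl]; exact tl_nodup x

lemma path_disjoint (h : b.Small ε) {x y : Fin m} (hxy : x ≠ y) :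
    List.Disjoint (b.path ε x) (b.path ε y) := by
  intro p hp hp'
  rcases mem_path.1 hp with ⟨i, h1, h2, rfl⟩ | ⟨hu, rfl⟩ <;>
    rcases mem_path.1 hp' with ⟨j, h1', h2', e⟩ | ⟨hu', e⟩
  · rcases b.inj x i y j h2 h2' e with ⟨h3, -⟩ | ⟨h3, -⟩
    · exact hxy h3
    · omega
  · exact xp_ne h hu' h2 e.symm
  · exact xp_ne h hu h2' e
  · exact hxy (xp_inj h e)

/-- the pieces of the points `p 1, …, p len` -/
lemma mem_pcs_tl {x : Fin m} {pg c : Bool} {a a' : ℝ} (h : (c, a, a') ∈ pcs pg (b.tl x)) :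
    ∃ j, 1 ≤ j ∧ j < (b.arm x).len ∧ c = fl (j - 1) pg ∧ a = (b.arm x).p j ∧
      a' = (b.arm x).p (j + 1) := by
  unfold tl at h
  have key : ∀ (n s : ℕ) (pg : Bool), (c, a, a') ∈ pcs pg
      ((List.range' s n).map fun j => (b.arm x).p (j + 1)) →
      ∃ j, s ≤ j ∧ j + 1 < s + n ∧ c = fl (j - s) pg ∧ a = (b.arm x).p (j + 1) ∧
        a' = (b.arm x).p (j + 2) := by
    intro n
    induction n with
    | zero => intro s pg h; simp at h
    | succ n ih =>
      intro s pg h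
      rcases n with _ | n
      · simp at h
      · rw [List.range'_succ, List.range'_succ, List.map_cons, List.map_cons, pcs_cons] at h
        rcases List.mem_cons.1 h with h | h
        · simp only [Prod.mk.injEq] at h
          obtain ⟨rfl, rfl, rfl⟩ := h
          refine ⟨s, le_rfl, by omega, ?_, rfl, rfl⟩
          simp [fl]
        · rw [← List.map_cons (f := fun j => (b.arm x).p (j + 1)), ← List.range'_succ] at h
          obtain ⟨j, h1, h2, h3, h4, h5⟩ := ih (s + 1) (!pg) h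
          refine ⟨j, by omega, by omega, ?_, h4, h5⟩
          rw [h3, show j - s = (j - (s + 1)) + 1 by omega]
          rfl
  rw [List.range_eq_range'] at h
  obtain ⟨j, -, h2, h3, h4, h5⟩ := key _ 0 pg h
  exact ⟨j + 1, by omega, by omega, by simpa using h3, h4, h5⟩

lemma page_eq_fl (A : Arm) (j : ℕ) : A.page j = fl j A.up := by
  unfold Arm.page
  induction j with
  | zero => simp [fl]
  | succ j ih =>
    rw [fl_succ, ← ih]
    by_cases h : Even j
    · rw [if_pos h, if_neg (by rw [Nat.even_add_one]; exact not_not.2 h)]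
    · rw [if_neg h, if_pos (by rw [Nat.even_add_one]; exact h)]
      simp

/-- the pieces of the new star -/
lemma mem_pcs_path {x : Fin m} {c : Bool} {a a' : ℝ} (h : (c, a, a') ∈ pcs false (b.path ε x)) :
    (∃ j, 1 ≤ j ∧ j < (b.arm x).len ∧ c = (b.arm x).page j ∧ a = (b.arm x).p j ∧
      a' = (b.arm x).p (j + 1)) ∨
    ((b.arm x).up = false ∧ c = false ∧ a = b.xp ε x ∧ a' = (b.arm x).p 1) := by
  unfold path at h
  rcases hx : (b.arm x).up with _ | _
  · rw [hx, if_neg (by simp)] at h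
    obtain ⟨n, hn⟩ : ∃ n, (b.arm x).len = n + 1 := ⟨(b.arm x).len - 1, by
      have := (b.arm x).len_pos; omega⟩
    have e : b.tl x = (b.arm x).p 1 :: (b.tl x).tail := by
      unfold tl
      rw [hn, List.range_succ_eq_map]
      rfl
    rw [e, pcs_cons] at h
    rcases List.mem_cons.1 h with h | h
    · simp only [Prod.mk.injEq] at h
      obtain ⟨rfl, rfl, rfl⟩ := h
      exact Or.inr ⟨rfl, rfl, rfl, rfl⟩
    · rw [← e] at h
      obtain ⟨j, h1, h2, h3, h4, h5⟩ := mem_pcs_tl h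
      refine Or.inl ⟨j, h1, h2, ?_, h4, h5⟩
      rw [page_eq_fl, hx, h3]
      obtain ⟨k, rfl⟩ : ∃ k, j = k + 1 := ⟨j - 1, by omega⟩
      rfl
  · rw [hx, if_pos rfl] at h
    obtain ⟨j, h1, h2, h3, h4, h5⟩ := mem_pcs_tl h
    refine Or.inl ⟨j, h1, h2, ?_, h4, h5⟩
    rw [page_eq_fl, hx, h3]
    obtain ⟨k, rfl⟩ : ∃ k, j = k + 1 := ⟨j - 1, by omega⟩
    rfl

/-! ### Interleaving near the centre -/

lemma near {c' c v : ℝ} (h : c' < c) (hv : ¬ (c' ≤ v ∧ v ≤ c)) :
    (c' < v ↔ c < v) ∧ (v < c' ↔ v < c) := by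
  refine ⟨⟨fun h1 => ?_, fun h1 => h.trans h1⟩, ⟨fun h1 => h1.trans h, fun h1 => ?_⟩⟩
  · by_contra h2
    exact hv ⟨h1.le, not_lt.1 h2⟩
  · by_contra h2
    exact hv ⟨not_lt.1 h2, h1.le⟩

lemma inter_near {c' c v w z : ℝ} (h : c' < c) (hv : ¬ (c' ≤ v ∧ v ≤ c))
    (hw : ¬ (c' ≤ w ∧ w ≤ c)) (hz : ¬ (c' ≤ z ∧ z ≤ c)) :
    Topo.Inter c' v w z ↔ Topo.Inter c v w z := by
  have h1 := near h hv
  have h2 := near h hw
  have h3 := near h hz
  refine inter_congr ?_ h1.1 ?_ h2.1 Iff.rfl h3.1 Iff.rfl h2.2 Iff.rfl h3.2 Iff.rfl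
  · rintro rfl; exact hv ⟨le_rfl, h.le⟩
  · rintro rfl; exact hv ⟨h.le, le_rfl⟩

lemma not_inter_self (a a' : ℝ) : ¬ Topo.Inter a a' a a' := by
  unfold Topo.Inter
  rintro (⟨h, -⟩ | ⟨h, -⟩) <;> exact lt_irrefl _ h

lemma not_inter_near {c' c a a' : ℝ} (h : c' < c) (hv : ¬ (c' ≤ a ∧ a ≤ c))
    (hw : ¬ (c' ≤ a' ∧ a' ≤ c)) : ¬ Topo.Inter a a' c c' := by
  rw [Pst.inter_iff]
  have m1 : ¬ (c' ≤ min a a' ∧ min a a' ≤ c) := by
    rcases min_choice a a' with e | e <;> rw [e] <;> assumption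
  have m2 : ¬ (c' ≤ max a a' ∧ max a a' ≤ c) := by
    rcases max_choice a a' with e | e <;> rw [e] <;> assumption
  rintro (⟨g1, g2, g3 | g3⟩ | ⟨g1, g2, g3 | g3⟩)
  · exact m1 ⟨g3.le, g1.le⟩
  · linarith
  · linarith
  · exact m2 ⟨g2.le, g3.le⟩

/-- if neither `f` nor `f'` is separated from `c`, they are not separated -/
lemma not_inter_trans {a a' c f f' : ℝ} (h : ¬ Topo.Inter a a' c f) (h' : ¬ Topo.Inter a a' c f')
    (ha : c ≠ a) (ha' : c ≠ a') : ¬ Topo.Inter a a' f f' := by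
  rw [Pst.inter_iff] at h h' ⊢
  have m1 : c ≠ min a a' := by rcases min_choice a a' with e | e <;> rw [e] <;> assumption
  have m2 : c ≠ max a a' := by rcases max_choice a a' with e | e <;> rw [e] <;> assumption
  have hle : min a a' ≤ max a a' := min_le_max
  generalize min a a' = s at *
  generalize max a a' = t at *
  rcases lt_or_gt_of_ne m1 with g1 | g1
  · rintro (⟨e1, e2, -⟩ | ⟨e1, e2, -⟩)
    · exact h (Or.inr ⟨e1, e2, Or.inl g1⟩)
    · exact h' (Or.inr ⟨e1, e2, Or.inl g1⟩)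
  · rcases lt_or_gt_of_ne m2 with g2 | g2
    · rintro (⟨-, -, e3⟩ | ⟨-, -, e3⟩)
      · exact h' (Or.inl ⟨g1, g2, e3⟩)
      · exact h (Or.inl ⟨g1, g2, e3⟩)
    · rintro (⟨e1, e2, -⟩ | ⟨e1, e2, -⟩)
      · exact h (Or.inr ⟨e1, e2, Or.inr g2⟩)
      · exact h' (Or.inr ⟨e1, e2, Or.inr g2⟩)

lemma not_inter_four {x' y' p q : ℝ} (h : x' < y')
    (H : (y' < q ∧ q < p) ∨ (q < p ∧ p < x') ∨ (p < x' ∧ y' < q)) :
    ¬ Topo.Inter x' p y' q := by
  rw [Pst.inter_iff]
  rcases H with ⟨h1, h2⟩ | ⟨h1, h2⟩ | ⟨h1, h2⟩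
  · rw [min_eq_left (by linarith), max_eq_right (by linarith)]
    rintro (⟨g1, g2, g3 | g3⟩ | ⟨g1, g2, g3 | g3⟩) <;> linarith
  · rw [min_eq_right (by linarith), max_eq_left (by linarith)]
    rintro (⟨g1, g2, g3 | g3⟩ | ⟨g1, g2, g3 | g3⟩) <;> linarith
  · rw [min_eq_right (by linarith), max_eq_left (by linarith)]
    rintro (⟨g1, g2, g3 | g3⟩ | ⟨g1, g2, g3 | g3⟩) <;> linarith

lemma far (h : b.Small ε) {x y : Fin m} (hy : (b.arm y).up = false) {j : ℕ} (h1 : 1 ≤ j)
    (hj : j ≤ (b.arm x).len) : ¬ (b.xp ε y ≤ (b.arm x).p j ∧ (b.arm x).p j ≤ b.ctr) := by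
  rintro ⟨h2, h3⟩
  have h4 := xp_mem h hy
  have h5 := b.p_ne_ctr hj (by omega)
  exact h.2 x j hj ⟨by linarith, lt_of_le_of_ne h3 h5⟩

lemma mem_hub {q : Fin m × List ℝ} : q ∈ b.hub ε ↔ ∃ x, q = (x, b.path ε x) := by
  unfold hub
  constructor
  · intro h
    obtain ⟨x, -, rfl⟩ := List.mem_map.1 h
    exact ⟨x, rfl⟩
  · rintro ⟨x, rfl⟩
    exact List.mem_map.2 ⟨x, b.mem_rot x, rfl⟩

lemma mem_allp_hub {c : Bool} {a a' : ℝ} (h : (c, a, a') ∈ allp (b.hub ε)) :
    ∃ x, (∃ j, 1 ≤ j ∧ j < (b.arm x).len ∧ c = (b.arm x).page j ∧ a = (b.arm x).p j ∧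
      a' = (b.arm x).p (j + 1)) ∨
    ((b.arm x).up = false ∧ c = false ∧ a = b.xp ε x ∧ a' = (b.arm x).p 1) := by
  unfold allp at h
  obtain ⟨q, hq, h⟩ := List.mem_flatMap.1 h
  obtain ⟨x, rfl⟩ := mem_hub.1 hq
  exact ⟨x, mem_pcs_path h⟩

lemma fsts_hub : fsts (b.hub ε) = b.rot.map (b.fp ε) := by
  unfold fsts hub
  rw [List.map_map]
  apply List.map_congr_left
  intro x _
  exact headI_path x

lemma nc_first (h : b.Small ε) {x y : Fin m} (hx : (b.arm x).up = false)
    (hy : (b.arm y).up = false) (hlt : b.ang x < b.ang y) :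
    ¬ Topo.Inter (b.xp ε x) ((b.arm x).p 1) (b.xp ε y) ((b.arm y).p 1) := by
  have h1 := xp_lt h hlt
  have h2 := xp_mem h hx
  have h3 := xp_mem h hy
  rw [b.ang_dn hx, b.ang_dn hy] at hlt
  have h4 : th b.ctr ((b.arm y).p 1) < th b.ctr ((b.arm x).p 1) := by linarith
  rw [th_lt_iff (b.p_one_ne y) (b.p_one_ne x)] at h4
  have hfx : (b.arm x).p 1 < b.ctr → (b.arm x).p 1 < b.ctr - ε := by
    intro h5
    by_contra h6
    exact h.2 x 1 (b.arm x).len_pos ⟨not_lt.1 h6, h5⟩
  apply not_inter_four h1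
  rcases h4 with ⟨h5, h6⟩ | ⟨h5, h6⟩ | ⟨h5, h6⟩
  · exact Or.inl ⟨by linarith, h6⟩
  · exact Or.inr (Or.inl ⟨h5, by linarith [hfx h6]⟩)
  · exact Or.inr (Or.inr ⟨by linarith [hfx h5], by linarith⟩)

lemma fp_lt (h : b.Small ε) {x y : Fin m} (hxy : b.ang x < b.ang y)
    (h1 : b.ang y < 1 ∨ 1 ≤ b.ang x) : b.fp ε x < b.fp ε y := by
  unfold fp
  rcases hx : (b.arm x).up with _ | _ <;> rcases hy : (b.arm y).up with _ | _
  · rw [if_neg (by simp), if_neg (by simp)]
    exact xp_lt h hxy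
  · linarith [b.ang_dn_mem hx, b.ang_up_mem hy]
  · rw [if_pos rfl, if_neg (by simp)]
    have h2 := b.ang_dn_mem hy
    have h3 : 1 ≤ b.ang x := by
      rcases h1 with h1 | h1
      · linarith
      · exact h1
    rw [b.ang_up hx] at h3
    have h4 : (b.arm x).p 1 < b.ctr := by
      rcases lt_or_gt_of_ne (b.p_one_ne x) with h5 | h5
      · exact h5
      · linarith [th_right h5]
    have h5 := xp_mem h hy
    by_contra h6
    exact h.2 x 1 (b.arm x).len_pos ⟨by linarith [not_lt.1 h6], h4⟩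
  · rw [if_pos rfl, if_pos rfl]
    rw [b.ang_up hx, b.ang_up hy] at hxy
    rw [b.ang_up hx, b.ang_up hy] at h1
    rcases (th_lt_iff (b.p_one_ne x) (b.p_one_ne y)).1 hxy with ⟨-, h2⟩ | ⟨h2, -⟩ | ⟨h2, h3⟩
    · exact h2
    · exact h2
    · rcases h1 with h1 | h1
      · linarith [th_left h2]
      · linarith [th_right h3]

lemma fp_lt' (h : b.Small ε) {x y : Fin m} (hx : 1 ≤ b.ang x) (hy : b.ang y < 1) :
    b.fp ε x < b.fp ε y := by
  unfold fp
  have hyu : (b.arm y).up = true := by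
    rcases hu : (b.arm y).up with _ | _
    · linarith [b.ang_dn_mem hu]
    · rfl
  rw [if_pos hyu]
  rw [b.ang_up hyu] at hy
  have h1 : b.ctr < (b.arm y).p 1 := by
    rcases lt_or_gt_of_ne (b.p_one_ne y) with h5 | h5
    · linarith [th_left h5]
    · exact h5
  rcases hu : (b.arm x).up with _ | _
  · rw [if_neg (by simp)]
    linarith [xp_mem h hu]
  · rw [if_pos rfl]
    rw [b.ang_up hu] at hx
    have h4 : (b.arm x).p 1 < b.ctr := by
      rcases lt_or_gt_of_ne (b.p_one_ne x) with h5 | h5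
      · exact h5
      · linarith [th_right h5]
    linarith

/-- **Conversion**: the star with the centre moved into the upper page. -/
theorem isStar_hub (h : b.Small ε) : IsStar leaf (b.hub ε) where
  ends := by
    intro q hq
    obtain ⟨x, rfl⟩ := mem_hub.1 hq
    obtain ⟨n, hn⟩ : ∃ n, (b.arm x).len = n + 1 := ⟨(b.arm x).len - 1, by
      have := (b.arm x).len_pos; omega⟩
    have e : b.tl x = ((List.range n).map fun j => (b.arm x).p (j + 1)) ++ [leaf x] := by
      unfold tl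
      rw [hn, List.range_succ, List.map_append]
      simp only [List.map_cons, List.map_nil]
      rw [← hn, b.arm_last]
    show ∃ l, b.path ε x = l ++ [leaf x]
    unfold path
    rw [e]
    split_ifs
    · exact ⟨_, rfl⟩
    · exact ⟨b.xp ε x :: _, rfl⟩
  full := by
    intro x
    exact List.mem_map.2 ⟨(x, b.path ε x), mem_hub.2 ⟨x, rfl⟩, rfl⟩
  nodup := by
    unfold pts hub
    rw [List.flatMap_map, List.nodup_flatMap]
    refine ⟨fun x _ => path_nodup h x, ?_⟩
    exact b.rot_nodup.imp fun hxy => path_disjoint h hxy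
  nc := by
    intro c a a' d d' h1 h2
    obtain ⟨x, hx⟩ := mem_allp_hub h1
    obtain ⟨y, hy⟩ := mem_allp_hub h2
    rcases hx with ⟨i, i1, i2, i3, rfl, rfl⟩ | ⟨i1, i2, rfl, rfl⟩ <;>
      rcases hy with ⟨j, j1, j2, j3, rfl, rfl⟩ | ⟨j1, j2, rfl, rfl⟩
    · exact fun hI => b.nc x i y j i2 j2 ⟨i3.symm.trans j3, hI⟩
    · rw [Pst.inter_comm, inter_near (xp_mem h j1).2 (far h j1 le_rfl (b.arm y).len_pos)
        (far h j1 i1 i2.le) (far h j1 (by omega) (by omega))]
      intro hI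
      refine b.nc y 0 x i (b.arm y).len_pos i2 ⟨?_, ?_⟩
      · rw [← i3, j2, page_eq_fl, j1]; rfl
      · rw [b.arm_zero]; exact hI
    · rw [inter_near (xp_mem h i1).2 (far h i1 le_rfl (b.arm x).len_pos)
        (far h i1 j1 j2.le) (far h i1 (by omega) (by omega))]
      intro hI
      refine b.nc x 0 y j (b.arm x).len_pos j2 ⟨?_, ?_⟩
      · rw [← j3, i2, page_eq_fl, i1]; rfl
      · rw [b.arm_zero]; exact hI
    · by_cases hxy : x = y
      · subst hxy; exact not_inter_self _ _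
      · rcases lt_or_gt_of_ne (fun e => hxy (b.ang_inj e)) with hlt | hlt
        · exact nc_first h i1 j1 hlt
        · rw [Pst.inter_comm]; exact nc_first h j1 i1 hlt
  sep := by
    intro a a' f f' h1 hf hf'
    rw [fsts_hub] at hf hf'
    obtain ⟨x, -, rfl⟩ := List.mem_map.1 hf
    obtain ⟨y, -, rfl⟩ := List.mem_map.1 hf'
    obtain ⟨z, hz⟩ := mem_allp_hub h1
    rcases hz with ⟨i, i1, i2, i3, rfl, rfl⟩ | ⟨-, i2, -⟩
    · have key : ∀ x, ¬ Topo.Inter ((b.arm z).p i) ((b.arm z).p (i + 1)) b.ctr (b.fp ε x) := by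
        intro x
        unfold fp
        rcases hx : (b.arm x).up with _ | _
        · rw [if_neg (by simp)]
          exact not_inter_near (xp_mem h hx).2 (far h hx i1 i2.le)
            (far h hx (by omega) (by omega))
        · rw [if_pos rfl]
          intro hI
          refine b.nc z i x 0 i2 (b.arm x).len_pos ⟨?_, ?_⟩
          · rw [← i3, page_eq_fl, hx]; rfl
          · rw [b.arm_zero]; exact hI
      exact not_inter_trans (key x) (key y) (b.p_ne_ctr i2.le (by omega)).symm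
        (b.p_ne_ctr (by omega : i + 1 ≤ (b.arm z).len) (by omega)).symm
    · simp at i2
  cyc := by
    have hs : ∀ l : List (Fin m), (l.Pairwise fun x y => b.ang x < b.ang y) →
        ∃ l₁ l₂, l = l₂ ++ l₁ ∧ (∀ x ∈ l₂, b.ang x < 1) ∧ ∀ x ∈ l₁, 1 ≤ b.ang x := by
      intro l hl
      induction l with
      | nil => exact ⟨[], [], rfl, by simp, by simp⟩
      | cons x l ih =>
        obtain ⟨h1, h2⟩ := List.pairwise_cons.1 hl
        rcases lt_or_ge (b.ang x) 1 with hx | hx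
        · obtain ⟨l₁, l₂, e, h3, h4⟩ := ih h2
          refine ⟨l₁, x :: l₂, by rw [e]; rfl, ?_, h4⟩
          intro y hy
          rcases List.mem_cons.1 hy with rfl | hy
          · exact hx
          · exact h3 y hy
        · refine ⟨x :: l, [], rfl, by simp, ?_⟩
          intro y hy
          rcases List.mem_cons.1 hy with rfl | hy
          · exact hx
          · exact hx.trans (h1 y hy).le
    obtain ⟨l₁, l₂, e, h1, h2⟩ := hs b.rot b.rot_pairwise
    refine ⟨l₁.map (b.fp ε), l₂.map (b.fp ε), ?_, ?_⟩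
    · rw [fsts_hub, e, List.map_append]
    · have hp := b.rot_pairwise
      rw [e, List.pairwise_append] at hp
      rw [← List.map_append, List.pairwise_map, List.pairwise_append]
      refine ⟨?_, ?_, ?_⟩
      · refine hp.2.1.imp_of_mem ?_
        intro x y hx _ hxy
        exact fp_lt h hxy (Or.inr (h2 x hx))
      · refine hp.1.imp_of_mem ?_
        intro x y _ hy hxy
        exact fp_lt h hxy (Or.inl (h1 y hy))
      · intro x hx y hy
        exact fp_lt' h (h2 x hx) (h1 y hy)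

end Vale.Agent.P040.Bp.SStar
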