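import Vale.Agent.P040.H242.Conv

/-!
# The words of the arms after the conversion
-/

set_option autoImplicit false

namespace Vale.Agent.P040.Bp.SStar

open Topo Pst

variable {m : ℕ} {leaf : Fin m → ℝ} (b : SStar leaf) {Γ : Type*} (G : Gaps leaf Γ)

/-- the word of the arm `x` from the point just above the centre to the last piece -/
noncomputable def aw (x : Fin m) : FreeGroup Γ :=
  (if (b.arm x).up then 1 else FreeGroup.of (G.gap b.ctr)) *
    wd G (b.arm x).up (b.tl x).dropLast

/-- the page of the last piece -/
def lastPage (x : Fin m) : Bool := (b.arm x).page ((b.arm x).len - 1)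

/-- the loop around the leaf `x` along the arm `x`, based just above the centre -/
noncomputable def loop (x : Fin m) : FreeGroup Γ :=
  b.aw G x * tip G x (b.lastPage x) * (b.aw G x)⁻¹

lemma tl_ne_nil (x : Fin m) : b.tl x ≠ [] := by
  unfold tl
  intro h
  have h1 := congrArg List.length h
  have := (b.arm x).len_pos
  simp at h1
  omega

lemma length_tl (x : Fin m) : (b.tl x).length = (b.arm x).len := by simp [tl]

variable {b} {ε : ℝ}

lemma gap_xp (h : b.Small ε) {x : Fin m} (hx : (b.arm x).up = false) :
    G.gap (b.xp ε x) = G.gap b.ctr := by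
  have h1 := xp_mem h hx
  refine G.const _ _ h1.2.le ?_
  intro y hy
  rw [← b.arm_last y] at hy
  exact far h hx (b.arm y).len_pos le_rfl ⟨hy.1, hy.2⟩

lemma lp_path (h : b.Small ε) (x : Fin m) : lp G x (b.path ε x) = b.loop G x := by
  have h1 : wd G true (b.path ε x).dropLast = b.aw G x := by
    unfold path aw
    rcases hx : (b.arm x).up with _ | _
    · rw [if_neg (by simp), if_neg (by simp), List.dropLast_cons_of_ne_nil (b.tl_ne_nil x)]
      show cl true (G.gap (b.xp ε x)) * wd G false (b.tl x).dropLast = _
      rw [gap_xp G h hx]
      rfl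
    · rw [if_pos rfl, if_pos rfl, one_mul]
  have h2 : fl (b.path ε x).dropLast.length true = b.lastPage x := by
    unfold lastPage
    rw [page_eq_fl]
    unfold path
    have := (b.arm x).len_pos
    rcases hx : (b.arm x).up with _ | _
    · rw [if_neg (by simp), List.dropLast_cons_of_ne_nil (b.tl_ne_nil x), List.length_cons,
        List.length_dropLast, length_tl]
      rfl
    · rw [if_pos rfl, List.length_dropLast, length_tl]
  unfold lp loop
  rw [h1, h2]

theorem tup_hub (h : b.Small ε) : tup G (b.hub ε) = b.rot.map fun x => (x, b.loop G x) := by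
  unfold tup hub
  rw [List.map_map]
  apply List.map_congr_left
  intro x _
  show (x, lp G x (b.path ε x)) = (x, b.loop G x)
  rw [lp_path G h]

theorem map_fst_hub : (b.hub ε).map Prod.fst = b.rot := by
  unfold hub
  rw [List.map_map]
  exact List.map_id _

end Vale.Agent.P040.Bp.SStar
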