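import Vale.Agent.P040.H242.Dgs

/-!
# Framing twists of star diagrams

Moving the arm of `z` once around all the other arms multiplies its path by the loop `T z` on the
right; so the class `Dgs` of framed lists is closed under `(z, w) ↦ (z, w * T z ^ k)`.
-/

set_option autoImplicit false

namespace Vale.Agent.P040.H84

variable {X G : Type*} [Group G]

section

variable {T : X → G} {Dg : List (X × G) → Prop}
  (rot : ∀ {p : X × G} {L}, Dg (p :: L) → Dg (L ++ [p]))
  (tw' : ∀ {p q : X × G} {L}, Dg (p :: q :: L) → Dg (q :: (p.1, (gg T q)⁻¹ * p.2) :: L))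

include rot in
omit [Group G] in
theorem rotn_of {M N : List (X × G)} (hD : Dg (M ++ N)) : Dg (N ++ M) := by
  induction M generalizing N with
  | nil => simpa using hD
  | cons p M ih =>
    have h1 : Dg ((M ++ N) ++ [p]) := rot hD
    rw [List.append_assoc] at h1
    have h2 := ih h1
    simpa using h2

include rot tw' in
/-- the first arm moves over the arms `M` -/
theorem pass_of {p : X × G} {M N : List (X × G)} (hD : Dg (p :: (M ++ N))) :
    Dg ((p.1, (pr T M)⁻¹ * p.2) :: (N ++ M)) := by
  induction M generalizing p N with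
  | nil => simpa using hD
  | cons q M ih =>
    have h1 : Dg (q :: (p.1, (gg T q)⁻¹ * p.2) :: (M ++ N)) := tw' hD
    have h2 : Dg ((p.1, (gg T q)⁻¹ * p.2) :: (M ++ (N ++ [q]))) := by
      have := rot h1
      simpa using this
    have h3 := ih h2
    have e : (pr T M)⁻¹ * ((gg T q)⁻¹ * p.2) = (pr T (q :: M))⁻¹ * p.2 := by
      rw [pr_cons]; group
    simp only [e] at h3
    simpa using h3

end

section

variable {T : X → G} {Dg : List (X × G) → Prop}
  (rot : ∀ {p : X × G} {L}, Dg (p :: L) → Dg (L ++ [p]))
  (prod : ∀ {L : List (X × G)}, Dg L → pr T L = 1)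
  (tw : ∀ {p q : X × G} {L}, Dg (p :: q :: L) → Dg ((q.1, gg T p * q.2) :: p :: L))
  (tw' : ∀ {p q : X × G} {L}, Dg (p :: q :: L) → Dg (q :: (p.1, (gg T q)⁻¹ * p.2) :: L))

include rot prod tw' in
theorem frame_one {p : X × G} {L : List (X × G)} (hD : Dg (p :: L)) :
    Dg ((p.1, p.2 * T p.1) :: L) := by
  have h1 : Dg (p :: (L ++ [])) := by simpa using hD
  have h2 := pass_of rot tw' h1
  have h3 : (pr T L)⁻¹ * p.2 = p.2 * T p.1 := by
    have h4 := prod hD
    rw [pr_cons] at h4
    have h5 : (pr T L)⁻¹ = gg T p := (eq_inv_of_mul_eq_one_left h4).symm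
    rw [h5]
    unfold gg
    group
  rw [h3] at h2
  simpa using h2

include rot tw in
/-- the last arm moves over the arms `M` to the left -/
theorem pass_of' {p : X × G} {M N : List (X × G)} (hD : Dg (M ++ p :: N)) :
    Dg ((p.1, pr T M * p.2) :: (M ++ N)) := by
  induction M using List.reverseRecOn generalizing p N with
  | nil => simpa using hD
  | append_singleton M q ih =>
    have h0 : Dg (M ++ q :: p :: N) := by simpa using hD
    have h1 : Dg (q :: p :: (N ++ M)) := by
      have := rotn_of rot h0
      simpa using this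
    have h2 := tw h1
    have h3 : Dg (M ++ (p.1, gg T q * p.2) :: (q :: N)) := by
      have : Dg (((p.1, gg T q * p.2) :: q :: N) ++ M) := by simpa using h2
      have := rotn_of rot this
      simpa using this
    have h4 := ih h3
    have e : pr T M * (gg T q * p.2) = pr T (M ++ [q]) * p.2 := by
      rw [pr_append, pr_cons, pr_nil]; group
    simp only [e] at h4
    simpa using h4

include rot prod tw in
theorem frame_neg_one {p : X × G} {L : List (X × G)} (hD : Dg (p :: L)) :
    Dg ((p.1, p.2 * (T p.1)⁻¹) :: L) := by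
  have h1 : Dg (L ++ p :: []) := rot hD
  have h2 := pass_of' rot tw h1
  have h3 : pr T L * p.2 = p.2 * (T p.1)⁻¹ := by
    have h4 := prod hD
    rw [pr_cons] at h4
    have h5 : pr T L = (gg T p)⁻¹ := (inv_eq_of_mul_eq_one_right h4).symm
    rw [h5]
    unfold gg
    group
  rw [h3] at h2
  simpa using h2

include rot prod tw tw' in
/-- **framing twists** -/
theorem frame_zpow {z : X} {w : G} {L : List (X × G)} (hD : Dg ((z, w) :: L)) (k : ℤ) :
    Dg ((z, w * T z ^ k) :: L) := by
  induction k using Int.induction_on with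
  | zero => simpa using hD
  | succ k ih =>
    have := frame_one rot prod tw' ih
    have e : w * T z ^ (k : ℤ) * T z = w * T z ^ ((k : ℤ) + 1) := by
      rw [zpow_add_one]; group
    simp only [e] at this
    exact this
  | pred k ih =>
    have := frame_neg_one rot prod tw ih
    have e : w * T z ^ (-(k : ℤ)) * (T z)⁻¹ = w * T z ^ (-(k : ℤ) - 1) := by
      rw [zpow_sub_one]; group
    simp only [e] at this
    exact this

end

end Vale.Agent.P040.H84

namespace Vale.Agent.P040.Pst

open H84

variable {ι : Type} {pos : ι → ℝ} {Γ : Type} {G : Gaps pos Γ}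

/-- **framing twists of star diagrams** -/
theorem Dgs.frame {z : ι} {w : FreeGroup Γ} {L : List (ι × FreeGroup Γ)}
    (hD : Dgs pos G ((z, w) :: L)) (k : ℤ) : Dgs pos G ((z, w * sl G z ^ k) :: L) :=
  frame_zpow (T := sl G) (Dg := Dgs pos G) Dgs.rot Dgs.prod Dgs.tw Dgs.tw' hD k

/-- framing twists at any arm of the list -/
theorem Dgs.frame' {z : ι} {w : FreeGroup Γ} {A B : List (ι × FreeGroup Γ)}
    (hD : Dgs pos G (A ++ (z, w) :: B)) (k : ℤ) : Dgs pos G (A ++ (z, w * sl G z ^ k) :: B) := by
  have h1 : Dgs pos G (((z, w) :: B) ++ A) := rotn_of (Dg := Dgs pos G) Dgs.rot hD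
  rw [List.cons_append] at h1
  have h2 := h1.frame k
  rw [← List.cons_append] at h2
  exact rotn_of (Dg := Dgs pos G) Dgs.rot h2

end Vale.Agent.P040.Pst
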