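import Vale.Agent.P040.H242.OInst
import Vale.Agent.P040.H510.Page

/-!
# P040, both parts odd: row (W2), the total error of the twists at the leaf `w` is bounded

Comparison with the data `P'` where another leaf is on the base curve.
-/

set_option autoImplicit false

namespace Vale.Agent.P040.H242O

open Pst P040H251 Vale.Agent.P040.H906 H682 ToCrv H84 H303

variable {h : ℕ}

/-- the leaf `z0` is on the base curve, the leaf `P.w` gets its page -/
noncomputable def swp (P : OData h) (z0 : Fin (2 * h + 1)) : OData h where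
  pos := P.pos
  inj := P.inj
  w := z0
  pg := Function.update P.pg P.w (P.pg z0)
  bal := by
    classical
    intro b
    by_cases hz : z0 = P.w
    · subst hz
      rw [Function.update_eq_self]
      exact P.bal b
    · refine Eq.trans ?_ (P.bal b)
      refine Finset.card_bij (fun i _ => Equiv.swap P.w z0 i) ?_ ?_ ?_
      · intro i hi
        simp only [Finset.mem_filter, Finset.mem_univ, true_and] at hi ⊢
        obtain ⟨h1, h2⟩ := hi
        by_cases hi1 : i = P.w
        · subst hi1
          rw [Equiv.swap_apply_left]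
          rw [Function.update_self] at h2
          exact ⟨hz, h2⟩
        · rw [Equiv.swap_apply_of_ne_of_ne hi1 h1]
          rw [Function.update_of_ne hi1] at h2
          exact ⟨hi1, h2⟩
      · intro i _ j _ hij
        exact (Equiv.swap P.w z0).injective hij
      · intro i hi
        simp only [Finset.mem_filter, Finset.mem_univ, true_and] at hi
        obtain ⟨h1, h2⟩ := hi
        refine ⟨Equiv.swap P.w z0 i, ?_, Equiv.swap_apply_self _ _ _⟩
        simp only [Finset.mem_filter, Finset.mem_univ, true_and]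
        by_cases hi1 : i = z0
        · subst hi1
          rw [Equiv.swap_apply_right, Function.update_self]
          exact ⟨Ne.symm hz, h2⟩
        · rw [Equiv.swap_apply_of_ne_of_ne h1 hi1, Function.update_of_ne h1]
          exact ⟨hi1, h2⟩
  one_le := P.one_le

theorem cum_add (P : OData h) (j : ℕ) : P.cum true j + P.cum false j =
    ((Finset.univ.filter (fun i => P.rk (P.pos i) < j)).card : ℝ) := by
  unfold OData.cum
  rw [← Finset.sum_add_distrib, Finset.sum_congr rfl fun i _ => P.mu_add i]
  simp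

theorem cc_add (P : OData h) (z0 z : Fin (2 * h + 1)) (j : ℕ) :
    (swp P z0).cc z true j + (swp P z0).cc z false j = P.cc z true j + P.cc z false j := by
  have e : ∀ j, (swp P z0).cum true j + (swp P z0).cum false j =
      P.cum true j + P.cum false j := fun j => by rw [cum_add, cum_add]; rfl
  have e2 := (swp P z0).nin_add z
  have e3 := P.nin_add z
  have er : (swp P z0).rk ((swp P z0).pos z) = P.rk (P.pos z) := rfl
  unfold OData.cc
  rw [er]
  split_ifs
  · exact e _
  · have := e (P.rk (P.pos z)); linarith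
  · exact e _

/-- **Change of pages.** -/
theorem val_swp (P : OData h) (T : VApi ℝ) (z0 : Fin (2 * h + 1)) {z : Fin (2 * h + 1)}
    {R : FreeGroup ℕ} {v : ℝ} (hv : P.ValT T z R v) :
    ∃ v', (swp P z0).ValT T z R v' ∧ |v' - v| ≤ 2 * ((h : ℝ) + 1 / 2) := by
  obtain ⟨t, r, l, L, E, hC, hF, hw, rfl⟩ := hv
  have h1 := H510.crv_page (D' := (swp P z0).DC z t) hC rfl rfl (fun j => cc_add P z0 z j)
  have h2 : ∀ x, |(E x + (((swp P z0).DC z t).C true ((P.DC z t).lab x) -
      (P.DC z t).C true ((P.DC z t).lab x))) - E x| ≤ (h : ℝ) + 1 / 2 := by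
    intro x
    rw [add_sub_cancel_left, abs_le]
    have a1 := (swp P z0).cc_nonneg z true ((P.DC z t).lab x)
    have a2 := (swp P z0).cc_le z true ((P.DC z t).lab x)
    have a3 := P.cc_nonneg z true ((P.DC z t).lab x)
    have a4 := P.cc_le z true ((P.DC z t).lab x)
    change -((h : ℝ) + 1 / 2) ≤ (swp P z0).cc z true ((P.DC z t).lab x) -
      P.cc z true ((P.DC z t).lab x) ∧ (swp P z0).cc z true ((P.DC z t).lab x) -
      P.cc z true ((P.DC z t).lab x) ≤ (h : ℝ) + 1 / 2
    constructor <;> linarith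
  refine ⟨_, ⟨t, r, l, L, _, h1, ⟨hF.fl, hF.lz, hF.zr, hF.rt, hF.emp, hF.rkl, hF.rkt⟩, hw, rfl⟩,
    ?_⟩
  have h3 := abs_le.1 (T.val_lip h1 hC ((h : ℝ) + 1 / 2) fun x _ => h2 x)
  have h4 := abs_le.1 (h2 r)
  rw [abs_le]
  constructor <;> linarith [h3.1, h3.2, h4.1, h4.2]

/-- **Row (W2).** -/
theorem oBound (P : OData h) (T : VApi ℝ) (ht : ∀ P' : OData h, OTwist P' T) {σ : ℝ}
    (hσ : σ = 1 ∨ σ = -1) : OBound P T σ := by
  intro R v hv
  obtain ⟨z0, hz0⟩ : ∃ z0, z0 ≠ P.w := by
    have h1 : 1 < Fintype.card (Fin (2 * h + 1)) := by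
      rw [Fintype.card_fin]
      have := P.one_le
      omega
    exact Fintype.exists_ne_of_one_lt_card h1 P.w
  have hw : P.w ≠ (swp P z0).w := Ne.symm hz0
  obtain ⟨u, hu, hub⟩ := val_swp P T z0 hv
  have key : ∀ k : ℕ, (swp P z0).ValT T P.w (tws (sl P.G0 P.w) k R)
      (u + k * ((-1) * ((h : ℝ) - 1 / 2))) := by
    intro k
    induction k with
    | zero => simpa using hu
    | succ k ih =>
      have := ht (swp P z0) hw ih
      rw [tws_succ]
      have e : u + k * ((-1) * ((h : ℝ) - 1 / 2)) + (-1) * ((h : ℝ) - 1 / 2) =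
          u + ((k + 1 : ℕ) : ℝ) * ((-1) * ((h : ℝ) - 1 / 2)) := by push_cast; ring
      rw [← e]
      exact this
  refine ⟨4 * ((h : ℝ) + 1 / 2), ?_⟩
  intro k v' hv'
  obtain ⟨u', hu', hub'⟩ := val_swp P T z0 hv'
  have e := valT_uniq hu' (key k)
  rw [e] at hub'
  have h1 := abs_le.1 hub
  have h2 := abs_le.1 hub'
  rcases hσ with rfl | rfl <;> linarith [h1.1, h1.2, h2.1, h2.2]

end Vale.Agent.P040.H242O
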