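import Vale.Agent.P040.H242.OCoreDef

/-!
# P040, both parts odd: one Hurwitz move changes the potentials by at most one
-/

set_option autoImplicit false

namespace Vale.Agent.P040.H242O

open H84 Bp

variable {X G : Type*} [Group G]

section hyp

variable {h : ℕ} {T : X → G} {Val : X → G → ℝ → Prop} {Dg : List (X × G) → Prop} {kap : X → ℝ}
  {ε : ℝ} (H : OHyp h T Val Dg kap ε)

include H

theorem OHyp.exists_shape {x y : X × G} {L : List (X × G)} (hD : Dg (x :: y :: L)) :
    ∃ (A B : List (X × G)) (o : X × G), L = B ++ o :: A ∧ A.length + 1 = h ∧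
      B.length + 1 = h := by
  have h1 := H.len hD
  have h2 := H.one_le
  simp only [List.length_cons] at h1
  obtain ⟨p, M, hM⟩ : ∃ p M, L.drop (h - 1) = p :: M := by
    cases hd : L.drop (h - 1) with
    | nil =>
      have := congrArg List.length hd
      rw [List.length_drop, List.length_nil] at this
      omega
    | cons p M => exact ⟨p, M, rfl⟩
  have hMl := congrArg List.length hM
  rw [List.length_drop, List.length_cons] at hMl
  refine ⟨M, L.take (h - 1), p, ?_, by omega, by rw [List.length_take]; omega⟩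
  rw [← hM, List.take_append_drop]

/-- **Half twist.** One Hurwitz move changes the potentials by at most one in total. -/
theorem OHyp.tw'_le [Fintype X] {x y : X × G} {L : List (X × G)} (hD : Dg (x :: y :: L)) :
    ∑ z, |F h T Val z (y :: (x.1, (gg T y)⁻¹ * x.2) :: L) - F h T Val z (x :: y :: L)| ≤ 1 := by
  classical
  obtain ⟨A, B, o, rfl, hA, hB⟩ := H.exists_shape hD
  have hD' := H.tw' hD
  have hn := H.nodup hD
  have hn' := H.nodup hD'
  obtain ⟨x1, wx⟩ := x
  obtain ⟨y1, wy⟩ := y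
  obtain ⟨o1, wo⟩ := o
  set x : X × G := (x1, wx) with hx
  set y : X × G := (y1, wy) with hy
  set o : X × G := (o1, wo) with ho
  set x' : X × G := (x1, (gg T y)⁻¹ * wx) with hx'
  change ∑ z, |F h T Val z (y :: x' :: (B ++ o :: A)) -
    F h T Val z (x :: y :: (B ++ o :: A))| ≤ 1
  change Dg (y :: x' :: (B ++ o :: A)) at hD'
  have hgx' : gg T y * gg T x' = gg T x * gg T y := by
    simp only [hx', hx, gg]
    group
  -- distinctness
  have hnn : ((x :: y :: (B ++ o :: A)).map Prod.fst).Nodup := hn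
  simp only [List.map_cons, List.map_append, hx, hy, ho] at hnn
  have hxy : x1 ≠ y1 := by rintro rfl; simp at hnn
  have hxo : x1 ≠ o1 := by rintro rfl; simp at hnn
  have hyo : y1 ≠ o1 := by rintro rfl; simp at hnn
  have hxA : x1 ∉ A.map Prod.fst := by
    intro hh; rw [List.nodup_cons] at hnn; exact hnn.1 (by simp [hh])
  have hxB : x1 ∉ B.map Prod.fst := by
    intro hh; rw [List.nodup_cons] at hnn; exact hnn.1 (by simp [hh])
  rw [List.nodup_cons] at hnn
  have hnn2 := hnn.2
  have hyA : y1 ∉ A.map Prod.fst := by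
    intro hh; rw [List.nodup_cons] at hnn2; exact hnn2.1 (by simp [hh])
  have hyB : y1 ∉ B.map Prod.fst := by
    intro hh; rw [List.nodup_cons] at hnn2; exact hnn2.1 (by simp [hh])
  rw [List.nodup_cons, List.nodup_append] at hnn2
  obtain ⟨-, hnB, hnoA, hBd⟩ := hnn2
  have hoB : o1 ∉ B.map Prod.fst := fun hh => hBd _ hh _ (by simp) rfl
  rw [List.nodup_cons] at hnoA
  have hoA : o1 ∉ A.map Prod.fst := hnoA.1
  have hnA := hnoA.2
  have hAB : ∀ z ∈ A.map Prod.fst, z ∉ B.map Prod.fst := fun z hz hz' =>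
    hBd _ hz' _ (by simp [hz]) rfl
  -- the two triangles
  have hS1 : Dg (o :: (A ++ x :: ([] ++ y :: B))) := by
    have h1 : Dg ((x :: y :: B) ++ (o :: A)) := by simpa using hD
    simpa using H.rotn h1
  obtain ⟨c1, c2, a2, a3, b3, b1, hc1, hc2, ha2, ha3, hb3, hb1, hs1⟩ :=
    H.tri hS1 (by simpa using hA)
  have hS2 : Dg (y :: ([] ++ x' :: (B ++ o :: A))) := hD'
  obtain ⟨c1', c2', a2', a3', b3', b1', hc1', hc2', ha2', ha3', hb3', hb1', hs2⟩ :=
    H.tri hS2 (by simpa using hB)
  -- the three changing leaves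
  have hFo : F h T Val o1 (y :: x' :: (B ++ o :: A)) -
      F h T Val o1 (x :: y :: (B ++ o :: A)) = (a2 - a3) / 2 + (c1' - c2') / 2 := by
    have e1 := Fg_eq (Fo h T Val) (z := o1) (w := wo) (A := y :: x' :: B) (B := A) (by
      simp [hx', hy, hxo.symm, hyo.symm]
      simpa using hoB)
    have e2 := Fg_eq (Fo h T Val) (z := o1) (w := wo) (A := x :: y :: B) (B := A) (by
      simp [hx, hy, hxo.symm, hyo.symm]
      simpa using hoB)
    rw [show (y :: x' :: B) ++ (o1, wo) :: A = y :: x' :: (B ++ o :: A) by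
      simp [ho]] at e1
    rw [show (x :: y :: B) ++ (o1, wo) :: A = x :: y :: (B ++ o :: A) by
      simp [ho]] at e2
    unfold F
    rw [e1, e2]
    unfold Fo
    rw [show A ++ (y :: x' :: B) = (A ++ [y]) ++ (x' :: B) by simp,
      show A ++ (x :: y :: B) = (A ++ [x]) ++ (y :: B) by simp,
      take_eq (by rw [List.length_append, List.length_singleton]; omega),
      take_eq (by rw [List.length_append, List.length_singleton]; omega),
      drop_eq (by rw [List.length_append, List.length_singleton]; omega),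
      drop_eq (by rw [List.length_append, List.length_singleton]; omega)]
    have f1 : vv Val o1 (wo⁻¹ * pr T (A ++ [y]) * wo) = a2 := by
      refine H.vv_eq ?_
      simpa [ho] using ha2
    have f2 : vv Val o1 (wo⁻¹ * pr T (A ++ [x]) * wo) = a3 := by
      refine H.vv_eq ?_
      simpa [ho] using ha3
    have f3 : vv Val o1 (wo⁻¹ * pr T (x' :: B) * wo) = c1' := by
      refine H.vv_eq ?_
      simpa [ho] using hc1'
    have f4 : vv Val o1 (wo⁻¹ * pr T (y :: B) * wo) = c2' := by
      refine H.vv_eq ?_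
      simpa [ho] using hc2'
    simp only [f1, f2, f3, f4]
    ring
  have hFy : F h T Val y1 (y :: x' :: (B ++ o :: A)) -
      F h T Val y1 (x :: y :: (B ++ o :: A)) = (a3' - a2') / 2 + (c2 - c1) / 2 := by
    have e1 := Fg_eq (Fo h T Val) (z := y1) (w := wy) (A := []) (B := x' :: (B ++ o :: A)) (by simp)
    have e2 := Fg_eq (Fo h T Val) (z := y1) (w := wy) (A := [x]) (B := B ++ o :: A) (by
      simp [hx, hxy.symm])
    rw [show [] ++ (y1, wy) :: x' :: (B ++ o :: A) = y :: x' :: (B ++ o :: A) by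
      simp [hy]] at e1
    rw [show [x] ++ (y1, wy) :: (B ++ o :: A) = x :: y :: (B ++ o :: A) by
      simp [hy]] at e2
    unfold F
    rw [e1, e2]
    unfold Fo
    rw [show x' :: (B ++ o :: A) ++ [] = (x' :: B) ++ (o :: A) by simp,
      show B ++ o :: A ++ [x] = (B ++ [o]) ++ (A ++ [x]) by simp,
      take_eq (by rw [List.length_cons]; omega),
      take_eq (by rw [List.length_append, List.length_singleton]; omega),
      drop_eq (by rw [List.length_cons]; omega),
      drop_eq (by rw [List.length_append, List.length_singleton]; omega)]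
    have f1 : vv Val y1 (wy⁻¹ * pr T (x' :: B) * wy) = a3' := by
      refine H.vv_eq ?_
      simpa [hy] using ha3'
    have f2 : vv Val y1 (wy⁻¹ * pr T (o :: A) * wy) = c2 := by
      refine H.vv_eq ?_
      simpa [hy] using hc2
    have f3 : vv Val y1 (wy⁻¹ * pr T (B ++ [o]) * wy) = a2' := by
      refine H.vv_eq ?_
      simpa [hy] using ha2'
    have f4 : vv Val y1 (wy⁻¹ * pr T (A ++ [x]) * wy) = c1 := by
      refine H.vv_eq ?_
      simpa [hy] using hc1
    simp only [f1, f2, f3, f4]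
    ring
  have hFx : F h T Val x1 (y :: x' :: (B ++ o :: A)) -
      F h T Val x1 (x :: y :: (B ++ o :: A)) = (b1' - b3') / 2 + (b1 - b3) / 2 := by
    have e1 := Fg_eq (Fo h T Val) (z := x1) (w := (gg T y)⁻¹ * wx) (A := [y]) (B := B ++ o :: A)
      (by simp [hy, hxy])
    have e2 := Fg_eq (Fo h T Val) (z := x1) (w := wx) (A := []) (B := y :: (B ++ o :: A)) (by simp)
    rw [show [y] ++ (x1, (gg T y)⁻¹ * wx) :: (B ++ o :: A) = y :: x' :: (B ++ o :: A) by
      simp [hx']] at e1
    rw [show [] ++ (x1, wx) :: y :: (B ++ o :: A) = x :: y :: (B ++ o :: A) by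
      simp [hx]] at e2
    unfold F
    rw [e1, e2]
    unfold Fo
    rw [show y :: (B ++ o :: A) ++ [] = (y :: B) ++ (o :: A) by simp,
      show B ++ o :: A ++ [y] = (B ++ [o]) ++ (A ++ [y]) by simp,
      take_eq (by rw [List.length_append, List.length_singleton]; omega),
      take_eq (by rw [List.length_cons]; omega),
      drop_eq (by rw [List.length_append, List.length_singleton]; omega),
      drop_eq (by rw [List.length_cons]; omega)]
    have f1 : vv Val x1 (((gg T y)⁻¹ * wx)⁻¹ * pr T (B ++ [o]) * ((gg T y)⁻¹ * wx)) = b1' := by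
      refine H.vv_eq ?_
      simpa [hx'] using hb1'
    have f2 : vv Val x1 (((gg T y)⁻¹ * wx)⁻¹ * pr T (A ++ [y]) * ((gg T y)⁻¹ * wx)) = b1 := by
      refine H.vv_eq ?_
      have e : ((gg T y)⁻¹ * wx)⁻¹ * pr T (A ++ [y]) * ((gg T y)⁻¹ * wx) =
          x.2⁻¹ * (pr T [] * gg T y * pr T A) * x.2 := by
        simp only [pr_append, pr_cons, pr_nil, hx]
        group
      rw [e]
      exact hb1
    have f3 : vv Val x1 (wx⁻¹ * pr T (y :: B) * wx) = b3' := by
      refine H.vv_eq ?_
      have e : wx⁻¹ * pr T (y :: B) * wx =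
          x'.2⁻¹ * (pr T B * gg T y * pr T []) * x'.2 := by
        simp only [pr_cons, pr_nil, hx']
        group
      rw [e]
      exact hb3'
    have f4 : vv Val x1 (wx⁻¹ * pr T (o :: A) * wx) = b3 := by
      refine H.vv_eq ?_
      simpa [hx] using hb3
    simp only [f1, f2, f3, f4]
    ring
  -- the other leaves
  have hF0 : ∀ z, z ∉ ({x1, y1, o1} : Finset X) →
      F h T Val z (y :: x' :: (B ++ o :: A)) = F h T Val z (x :: y :: (B ++ o :: A)) := by
    intro z hz
    simp only [Finset.mem_insert, Finset.mem_singleton, not_or] at hz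
    obtain ⟨hzx, hzy, hzo⟩ := hz
    unfold F
    by_cases hzA : z ∈ A.map Prod.fst
    · have hzB : z ∉ B.map Prod.fst := hAB z hzA
      obtain ⟨A1, w, A2, rfl, hA1, hA2⟩ := exists_split hzA hnA
      have e1 := Fg_eq (Fo h T Val) (z := z) (w := w) (A := y :: x' :: (B ++ o :: A1)) (B := A2)
        (by
        simp [hx', hy, ho, hzx, hzy, hzo]
        exact ⟨by simpa using hzB, by simpa using hA1⟩)
      have e2 := Fg_eq (Fo h T Val) (z := z) (w := w) (A := x :: y :: (B ++ o :: A1)) (B := A2)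
        (by
        simp [hx, hy, ho, hzx, hzy, hzo]
        exact ⟨by simpa using hzB, by simpa using hA1⟩)
      have s1 : ∀ u v : X × G, u :: v :: (B ++ o :: A1) ++ (z, w) :: A2 =
          u :: v :: (B ++ o :: (A1 ++ (z, w) :: A2)) := by intro u v; simp
      rw [s1] at e1 e2
      rw [e1, e2]
      unfold Fo
      simp only [List.length_append, List.length_cons] at hA
      rw [pr_take_swap hgx' A2 _ (Or.inr (by omega)), pr_drop_swap hgx' A2 _ (Or.inr (by omega))]
    · by_cases hzB : z ∈ B.map Prod.fst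
      · obtain ⟨B1, w, B2, rfl, hB1, hB2⟩ := exists_split hzB hnB
        have e1 := Fg_eq (Fo h T Val) (z := z) (w := w) (A := y :: x' :: B1) (B := B2 ++ o :: A)
          (by
          simp [hx', hy, hzx, hzy]
          simpa using hB1)
        have e2 := Fg_eq (Fo h T Val) (z := z) (w := w) (A := x :: y :: B1) (B := B2 ++ o :: A)
          (by
          simp [hx, hy, hzx, hzy]
          simpa using hB1)
        have s1 : ∀ u v : X × G, u :: v :: B1 ++ (z, w) :: (B2 ++ o :: A) =
            u :: v :: (B1 ++ (z, w) :: B2 ++ o :: A) := by intro u v; simp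
        rw [s1] at e1 e2
        rw [e1, e2]
        unfold Fo
        simp only [List.length_append, List.length_cons] at hB
        rw [pr_take_swap hgx' (B2 ++ o :: A) B1 (Or.inl (by simp; omega)),
          pr_drop_swap hgx' (B2 ++ o :: A) B1 (Or.inl (by simp; omega))]
      · rw [Fg_of_notMem, Fg_of_notMem]
        · simp [hx, hy, ho, hzx, hzy, hzo]
          exact ⟨by simpa using hzB, by simpa using hzA⟩
        · simp [hx', hy, ho, hzx, hzy, hzo]
          exact ⟨by simpa using hzB, by simpa using hzA⟩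
  have hsum : ∑ z, |F h T Val z (y :: x' :: (B ++ o :: A)) -
      F h T Val z (x :: y :: (B ++ o :: A))| =
      ∑ z ∈ ({x1, y1, o1} : Finset X), |F h T Val z (y :: x' :: (B ++ o :: A)) -
      F h T Val z (x :: y :: (B ++ o :: A))| := by
    symm
    apply Finset.sum_subset (Finset.subset_univ _)
    intro z _ hz
    rw [hF0 z hz, sub_self, abs_zero]
  rw [hsum, Finset.sum_insert (by simp [hxy, hxo]), Finset.sum_insert (by simp [hyo]),
    Finset.sum_singleton, hFx, hFy, hFo]
  have t1 : |(b1' - b3') / 2 + (b1 - b3) / 2| ≤ |b3' - b1'| / 2 + |b3 - b1| / 2 := by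
    refine (abs_add_le _ _).trans (le_of_eq ?_)
    rw [abs_div, abs_div, abs_sub_comm b1' b3', abs_sub_comm b1 b3, abs_two]
  have t2 : |(a3' - a2') / 2 + (c2 - c1) / 2| ≤ |a2' - a3'| / 2 + |c1 - c2| / 2 := by
    refine (abs_add_le _ _).trans (le_of_eq ?_)
    rw [abs_div, abs_div, abs_sub_comm a3' a2', abs_sub_comm c2 c1, abs_two]
  have t3 : |(a2 - a3) / 2 + (c1' - c2') / 2| ≤ |a2 - a3| / 2 + |c1' - c2'| / 2 := by
    refine (abs_add_le _ _).trans (le_of_eq ?_)
    rw [abs_div, abs_div, abs_two]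
  linarith

/-- The other half twist. -/
theorem OHyp.tw_le [Fintype X] {x y : X × G} {L : List (X × G)} (hD : Dg (x :: y :: L)) :
    ∑ z, |F h T Val z ((y.1, gg T x * y.2) :: x :: L) - F h T Val z (x :: y :: L)| ≤ 1 := by
  have h1 := H.tw'_le (H.tw hD)
  have h2 : ((y.1, gg T x * y.2).1, (gg T x)⁻¹ * (y.1, gg T x * y.2).2) = y := by
    simp
  rw [h2] at h1
  refine le_trans (le_of_eq ?_) h1
  apply Finset.sum_congr rfl
  intro z _
  rw [abs_sub_comm]

/-! ### the antipode -/

theorem OHyp.twist_pow {z : X} {R : G} {v : ℝ} (hv : Val z R v) (n : ℕ) :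
    Val z ((T z ^ n)⁻¹ * R * T z ^ n) (v + ε * n * (h - 1 / 2)) := by
  induction n with
  | zero => simpa using hv
  | succ n ih =>
    have h1 := H.twist ih
    convert h1 using 1
    · rw [pow_succ]; group
    · push_cast; ring

theorem OHyp.twist_zpow {z : X} {R R' : G} {v v' : ℝ} (hv : Val z R v) (hv' : Val z R' v')
    (j : ℤ) (hR : R' = (T z ^ j)⁻¹ * R * T z ^ j) : v' = v + ε * j * (h - 1 / 2) := by
  obtain ⟨n, hn | hn⟩ := j.eq_nat_or_neg
  · subst hn
    have h1 := H.twist_pow hv n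
    rw [zpow_natCast] at hR
    rw [← hR] at h1
    have := H.uniq hv' h1
    rw [this]; push_cast; ring
  · subst hn
    have h1 := H.twist_pow hv' n
    have h2 : (T z ^ n)⁻¹ * R' * T z ^ n = R := by
      rw [hR, zpow_neg, zpow_natCast]; group
    rw [h2] at h1
    have := H.uniq hv h1
    rw [this]; push_cast; ring

/-- the two windows at the front arm -/
theorem OHyp.win {z : X} {w : G} {M1 M2 : List (X × G)}
    (hD : Dg ((z, w) :: (M1 ++ M2))) (h1 : M1.length = h) (h2 : M2.length = h) :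
    ∃ v1 v2, Val z (w⁻¹ * pr T M1 * w) v1 ∧ Val z (w⁻¹ * pr T M2 * w) v2 ∧
      Fo h T Val (z, w) (M1 ++ M2) = (v1 + v2) / 2 := by
  have hh := H.one_le
  obtain ⟨v1, hv1⟩ : ∃ v1, Val z (w⁻¹ * pr T M1 * w) v1 := by
    obtain ⟨A, b, rfl⟩ : ∃ A b, M1 = A ++ [b] := by
      rcases List.eq_nil_or_concat' M1 with h3 | ⟨A, b, h3⟩
      · rw [h3, List.length_nil] at h1; omega
      · exact ⟨A, b, h3⟩
    obtain ⟨q, M, rfl⟩ : ∃ q M, M2 = q :: M := by
      cases M2 with
      | nil => rw [List.length_nil] at h2; omega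
      | cons q M => exact ⟨q, M, rfl⟩
    have h3 : Dg ((z, w) :: (A ++ b :: ([] ++ q :: M))) := by simpa using hD
    have h4 : A.length + ([] : List (X × G)).length + 1 = h := by
      simp only [List.length_append, List.length_cons, List.length_nil] at h1 ⊢; omega
    obtain ⟨c1, c2, a2, a3, b3, b1, -, -, -, h5, -⟩ := H.tri h3 h4
    exact ⟨a3, by simpa using h5⟩
  obtain ⟨v2, hv2⟩ : ∃ v2, Val z (w⁻¹ * pr T M2 * w) v2 := by
    obtain ⟨A, b, rfl⟩ : ∃ A b, M2 = A ++ [b] := by
      rcases List.eq_nil_or_concat' M2 with h3 | ⟨A, b, h3⟩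
      · rw [h3, List.length_nil] at h2; omega
      · exact ⟨A, b, h3⟩
    obtain ⟨M, q, rfl⟩ : ∃ M q, M1 = M ++ [q] := by
      rcases List.eq_nil_or_concat' M1 with h3 | ⟨A, b, h3⟩
      · rw [h3, List.length_nil] at h1; omega
      · exact ⟨A, b, h3⟩
    have h0 : Dg (((z, w) :: M) ++ (q :: (A ++ [b]))) := by simpa using hD
    have h3 : Dg (q :: (A ++ b :: ([] ++ (z, w) :: M))) := by
      have := H.rotn h0
      simpa using this
    have h4 : A.length + ([] : List (X × G)).length + 1 = h := by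
      simp only [List.length_append, List.length_cons, List.length_nil] at h2 ⊢; omega
    obtain ⟨c1, c2, a2, a3, b3, b1, h5, -⟩ := H.tri h3 h4
    exact ⟨c1, by simpa using h5⟩
  refine ⟨v1, v2, hv1, hv2, ?_⟩
  unfold Fo
  rw [take_eq h1, drop_eq h1, H.vv_eq hv1, H.vv_eq hv2]

/-- splitting a star at a leaf: the leaf in front, two windows of length `h` -/
theorem OHyp.front {L : List (X × G)} (hD : Dg L) {z : X} (hz : z ∈ L.map Prod.fst) :
    ∃ (w : G) (M1 M2 : List (X × G)), Dg ((z, w) :: (M1 ++ M2)) ∧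
      M1.length = h ∧ M2.length = h ∧
      F h T Val z L = Fo h T Val (z, w) (M1 ++ M2) ∧
      (tp T L) ~r (tp T ((z, w) :: (M1 ++ M2))) := by
  have hh := H.one_le
  obtain ⟨A, w, B, rfl, hA, hB⟩ := exists_split hz (H.nodup hD)
  have h1 : Dg ((z, w) :: (B ++ A)) := by
    have := H.rotn hD
    simpa using this
  have hl : (B ++ A).length = 2 * h := by
    have := H.len h1
    rw [List.length_cons] at this
    omega
  have h4 : B ++ A = (B ++ A).take h ++ (B ++ A).drop h := (List.take_append_drop h _).symm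
  refine ⟨w, (B ++ A).take h, (B ++ A).drop h, ?_, ?_, ?_, ?_, ?_⟩
  · rw [← h4]; exact h1
  · rw [List.length_take]; omega
  · rw [List.length_drop]; omega
  · rw [← h4]
    exact Fg_eq _ hA
  · rw [← h4]
    simp only [tp_append, tp_cons]
    have := List.isRotated_append (l := tp T A) (l' := (z, gg T (z, w)) :: tp T B)
    simpa using this

/-- the value at a leaf of a star is a half integer up to `kap` divided by two -/
theorem OHyp.quarter {L : List (X × G)} (hD : Dg L) {z : X} (hz : z ∈ L.map Prod.fst) :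
    ∃ n : ℤ, F h T Val z L = kap z + n / 4 := by
  obtain ⟨w, M1, M2, hD', l1, l2, hF, -⟩ := H.front hD hz
  obtain ⟨v1, v2, hv1, hv2, hv⟩ := H.win hD' l1 l2
  obtain ⟨n1, e1⟩ := H.lat hv1
  obtain ⟨n2, e2⟩ := H.lat hv2
  refine ⟨n1 + n2, ?_⟩
  rw [hF, hv, e1, e2]
  push_cast
  ring

end hyp

/-- reading the antipode of a star from the front arm -/
theorem bar_front' (p : X × G) (A C : List (X × G)) :
    TEq (bar (p :: (A ++ C)))
      (p :: (cj (p.2 * lps A) (bar C) ++ cj p.2 (bar A))) := by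
  have h1 : bar (p :: (A ++ C)) = (cj (p.2 * lps A) (bar C) ++ cj p.2 (bar A)) ++ [p] := by
    rw [bar, bar_append, cj_append, cj_cj]
  rw [h1]
  refine TEq.of_rot ?_
  have := List.isRotated_append (l := cj (p.2 * lps A) (bar C) ++ cj p.2 (bar A)) (l' := [p])
  simpa using this

section hyp

variable {h : ℕ} {T : X → G} {Val : X → G → ℝ → Prop} {Dg : List (X × G) → Prop} {kap : X → ℝ}
  {ε : ℝ} (H : OHyp h T Val Dg kap ε)

include H

/-- **The antipode.** -/
theorem OHyp.anti_of_mem {L L' : List (X × G)} (hL : Dg L) (hL' : Dg L')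
    (ht : TEq (tp T L') (bar (tp T L))) {z : X} (hz : z ∈ L.map Prod.fst) :
    ∃ q : ℤ, F h T Val z L' = F h T Val z L + ((h : ℝ) - 1 / 2) / 2 + ((h : ℝ) - 1 / 2) * q := by
  have hz' : z ∈ L'.map Prod.fst := by
    have h1 := (TEq.perm_fst ht).mem_iff (a := z)
    rw [bar_map_fst, tp_map_fst, tp_map_fst, List.mem_reverse] at h1
    exact h1.2 hz
  obtain ⟨w, M1, M2, hD, l1, l2, hF, hr⟩ := H.front hL hz
  obtain ⟨w', M1', M2', hD', l1', l2', hF', hr'⟩ := H.front hL' hz'
  obtain ⟨v1, v2, hv1, hv2, hv⟩ := H.win hD l1 l2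
  obtain ⟨v1', v2', hv1', hv2', hv'⟩ := H.win hD' l1' l2'
  -- the tuples
  have hp : lps (tp T L) = 1 := by rw [lps_tp]; exact H.prod hL
  have hp0 : gg T (z, w) * lps (tp T M1) * lps (tp T M2) = 1 := by
    have := H.prod hD
    rw [pr_cons, pr_append, ← lps_tp, ← lps_tp] at this
    rw [mul_assoc]; exact this
  have h1 : TEq (tp T L') (bar (tp T ((z, w) :: (M1 ++ M2)))) :=
    ht.trans ((TEq.of_rot hr).bar hp)
  have h2 : TEq (tp T ((z, w') :: (M1' ++ M2')))
      ((z, gg T (z, w)) :: (cj (gg T (z, w) * lps (tp T M1)) (bar (tp T M2)) ++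
          cj (gg T (z, w)) (bar (tp T M1)))) := by
    refine (TEq.of_rot hr').symm.trans (h1.trans ?_)
    have := bar_front' (z, gg T (z, w)) (tp T M1) (tp T M2)
    simpa using this
  obtain ⟨c, hc⟩ := h2
  have hn' : ((cj c (tp T ((z, w') :: (M1' ++ M2')))).map Prod.fst).Nodup := by
    rw [cj_map_fst, tp_map_fst]
    exact H.nodup hD'
  rw [tp_cons, cj_cons] at hc hn'
  have h3 := eq_of_isRotated hc hn' rfl
  rw [List.cons.injEq, Prod.mk.injEq, tp_append, cj_append] at h3
  obtain ⟨⟨-, h4⟩, h5⟩ := h3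
  have l3 : (cj c (tp T M1')).length =
      (cj (gg T (z, w) * lps (tp T M1)) (bar (tp T M2))).length := by
    simp [l1', l2]
  obtain ⟨h6, h7⟩ := List.append_inj h5 l3
  have h8 : c * pr T M1' * c⁻¹ = pr T M2 := by
    have := congrArg lps h6
    rw [lps_cj, lps_tp, lps_cj, lps_bar] at this
    rw [this, ← lps_tp]
    have e : gg T (z, w) * lps (tp T M1) = (lps (tp T M2))⁻¹ := eq_inv_of_mul_eq_one_left hp0
    rw [e]
    group
  have h9 : c * pr T M2' * c⁻¹ = gg T (z, w) * pr T M1 * (gg T (z, w))⁻¹ := by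
    have := congrArg lps h7
    rw [lps_cj, lps_tp, lps_cj, lps_bar, lps_tp] at this
    exact this
  -- the framing
  obtain ⟨j, hj⟩ := H.cent z (w⁻¹ * c * w') (by
    have h10 : c * (w' * T z * w'⁻¹) * c⁻¹ = w * T z * w⁻¹ := h4
    calc w⁻¹ * c * w' * T z = w⁻¹ * (c * (w' * T z * w'⁻¹) * c⁻¹) * (c * w') := by group
      _ = w⁻¹ * (w * T z * w⁻¹) * (c * w') := by rw [h10]
      _ = T z * (w⁻¹ * c * w') := by group)
  have hw : w' = c⁻¹ * w * T z ^ j := by
    rw [← hj]; group
  have e1 : pr T M1' = c⁻¹ * pr T M2 * c := by rw [← h8]; group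
  have e2 : pr T M2' = c⁻¹ * (gg T (z, w) * pr T M1 * (gg T (z, w))⁻¹) * c := by
    rw [← h9]; group
  have r1 : v1' = v2 + ε * j * (h - 1 / 2) := by
    refine H.twist_zpow hv2 hv1' j ?_
    rw [e1, hw]; group
  have r2 : v2' = v1 + ε * ((j - 1 : ℤ) : ℝ) * (h - 1 / 2) := by
    refine H.twist_zpow hv1 hv2' (j - 1) ?_
    rw [e2, hw]
    simp only [gg]
    rw [zpow_sub, zpow_one]
    group
  rw [hF, hF', hv, hv', r1, r2]
  rcases H.sgn with he | he
  · refine ⟨j - 1, ?_⟩
    rw [he]; push_cast; ring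
  · refine ⟨-j, ?_⟩
    rw [he]; push_cast; ring

end hyp

end Vale.Agent.P040.H242O
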