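import Vale.Agent.P040.H147.Anti
import Vale.Agent.P040.H84.Core

/-!
# P040, both parts odd: the potentials of Hurwitz tuples for `2 * h + 1` leaves

`Val z R v`: the closed curve with word `R`, based at the leaf `z`, passing through the middle of
the leaf, has the value `v` (relative to `z`).  The windows have `h` arms, the full turn of every
leaf is `h - 1/2`.
-/

set_option autoImplicit false

namespace Vale.Agent.P040.H242O

open H84 Bp

variable {X G : Type*} [Group G]

/-- The geometric input for `2 * h + 1` leaves: values of the centre cuts, star diagrams (`Dg`, as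
framed lists).  `kap` and `lat`: the values of the leaf `z` lie in `kap z + ℤ/2`. -/
structure OHyp (h : ℕ) (T : X → G) (Val : X → G → ℝ → Prop) (Dg : List (X × G) → Prop)
    (kap : X → ℝ) (ε : ℝ) : Prop where
  one_le : 1 ≤ h
  sgn : ε = 1 ∨ ε = -1
  uniq : ∀ {z R v v'}, Val z R v → Val z R v' → v = v'
  twist : ∀ {z R v}, Val z R v → Val z ((T z)⁻¹ * R * T z) (v + ε * (h - 1 / 2))
  lat : ∀ {z R v}, Val z R v → ∃ n : ℤ, v = kap z + n / 2
  cent : ∀ (z : X) (c : G), c * T z = T z * c → ∃ j : ℤ, c = T z ^ j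
  rot : ∀ {p : X × G} {L}, Dg (p :: L) → Dg (L ++ [p])
  len : ∀ {L}, Dg L → L.length = 2 * h + 1
  nodup : ∀ {L : List (X × G)}, Dg L → (L.map Prod.fst).Nodup
  prod : ∀ {L : List (X × G)}, Dg L → pr T L = 1
  tw : ∀ {p q : X × G} {L}, Dg (p :: q :: L) → Dg ((q.1, gg T p * q.2) :: p :: L)
  tw' : ∀ {p q : X × G} {L}, Dg (p :: q :: L) → Dg (q :: (p.1, (gg T q)⁻¹ * p.2) :: L)
  tri : ∀ {a b c : X × G} {A B L : List (X × G)},
    Dg (a :: (A ++ b :: (B ++ c :: L))) → A.length + B.length + 1 = h →
    ∃ c1 c2 a2 a3 b3 b1 : ℝ,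
      Val c.1 (c.2⁻¹ * (pr T A * gg T b * pr T B) * c.2) c1 ∧
      Val c.1 (c.2⁻¹ * (gg T a * pr T A * pr T B) * c.2) c2 ∧
      Val a.1 (a.2⁻¹ * (pr T A * pr T B * gg T c) * a.2) a2 ∧
      Val a.1 (a.2⁻¹ * (pr T A * gg T b * pr T B) * a.2) a3 ∧
      Val b.1 (b.2⁻¹ * (pr T B * gg T a * pr T A) * b.2) b3 ∧
      Val b.1 (b.2⁻¹ * (pr T B * gg T c * pr T A) * b.2) b1 ∧
      |c1 - c2| + |a2 - a3| + |b3 - b1| ≤ 1

/-- the potential of a star, pointed at the arm `p`, followed by the arms `M` -/
noncomputable def Fo (h : ℕ) (T : X → G) (Val : X → G → ℝ → Prop) (p : X × G)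
    (M : List (X × G)) : ℝ :=
  (vv Val p.1 (p.2⁻¹ * pr T (M.take h) * p.2) +
    vv Val p.1 (p.2⁻¹ * pr T (M.drop h) * p.2)) / 2

open Classical in
/-- a function of (arm, following arms), read at the leaf `z` of a star -/
noncomputable def Fg (f : X × G → List (X × G) → ℝ) (z : X) (L : List (X × G)) : ℝ :=
  match L.span (fun p => decide (p.1 ≠ z)) with
  | (A, p :: B) => f p (B ++ A)
  | (_, []) => 0

/-- the potential at the leaf `z` of a star -/
noncomputable def F (h : ℕ) (T : X → G) (Val : X → G → ℝ → Prop) (z : X)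
    (L : List (X × G)) : ℝ :=
  Fg (Fo h T Val) z L

omit [Group G] in
theorem Fg_eq (f : X × G → List (X × G) → ℝ) {z : X} {w : G}
    {A B : List (X × G)} (hz : z ∉ A.map Prod.fst) :
    Fg f z (A ++ (z, w) :: B) = f (z, w) (B ++ A) := by
  classical
  have h1 : ∀ A : List (X × G), z ∉ A.map Prod.fst →
      (A ++ (z, w) :: B).span (fun p => decide (p.1 ≠ z)) = (A, (z, w) :: B) := by
    intro A
    induction A with
    | nil => intro _; rw [List.nil_append, List.span_eq_takeWhile_dropWhile]; simp
    | cons p A ih =>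
      intro hA
      rw [List.span_eq_takeWhile_dropWhile] at ih ⊢
      have hp : p.1 ≠ z := by rintro rfl; simp at hA
      have hA' : z ∉ A.map Prod.fst := fun hh => hA (by simp only [List.map_cons]; exact List.mem_cons_of_mem _ hh)
      have ih' := ih hA'
      rw [Prod.mk.injEq] at ih'
      simp only [List.cons_append, Prod.mk.injEq]
      rw [List.takeWhile_cons, List.dropWhile_cons]
      simp only [ne_eq, hp, not_false_eq_true, decide_true, ↓reduceIte]
      refine ⟨?_, ?_⟩
      · rw [List.cons.injEq]; exact ⟨rfl, ih'.1⟩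
      · exact ih'.2
  unfold Fg
  rw [h1 A hz]

omit [Group G] in
theorem Fg_of_notMem (f : X × G → List (X × G) → ℝ) {z : X}
    {L : List (X × G)} (hz : z ∉ L.map Prod.fst) : Fg f z L = 0 := by
  classical
  have h1 : L.span (fun p => decide (p.1 ≠ z)) = (L, []) := by
    rw [List.span_eq_takeWhile_dropWhile]
    have h2 : ∀ p ∈ L, decide (p.1 ≠ z) = true := by
      intro p hp
      rw [decide_eq_true_eq]
      rintro rfl
      exact hz (List.mem_map_of_mem hp)
    have h3 : ∀ L : List (X × G), (∀ p ∈ L, decide (p.1 ≠ z) = true) →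
        L.takeWhile (fun p => decide (p.1 ≠ z)) = L ∧ L.dropWhile (fun p => decide (p.1 ≠ z)) = [] := by
      intro L
      induction L with
      | nil => intro _; exact ⟨rfl, rfl⟩
      | cons p L ih =>
        intro hL
        have hp := hL p (List.mem_cons_self)
        have := ih fun q hq => hL q (List.mem_cons_of_mem _ hq)
        rw [List.takeWhile_cons, List.dropWhile_cons, if_pos hp, if_pos hp, this.1, this.2]
        exact ⟨rfl, rfl⟩
    rw [(h3 L h2).1, (h3 L h2).2]
  unfold Fg
  rw [h1]

omit [Group G] in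
theorem Fg_rotate (f : X × G → List (X × G) → ℝ) {p : X × G}
    {L : List (X × G)} (hn : ((p :: L).map Prod.fst).Nodup) (z : X) :
    Fg f z (L ++ [p]) = Fg f z (p :: L) := by
  by_cases hz : z ∈ (p :: L).map Prod.fst
  · by_cases hpz : p.1 = z
    · subst hpz
      have h1 : p.1 ∉ L.map Prod.fst := by
        rw [List.map_cons, List.nodup_cons] at hn; exact hn.1
      have e1 : Fg f p.1 (L ++ (p.1, p.2) :: []) = _ := Fg_eq f h1
      have e2 : Fg f p.1 ([] ++ (p.1, p.2) :: L) = _ := Fg_eq f (by simp)
      rw [List.nil_append] at e2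
      rw [show (p :: L) = (p.1, p.2) :: L from rfl, e2,
        show L ++ [p] = L ++ (p.1, p.2) :: [] from rfl, e1]
      simp
    · have hz' : z ∈ L.map Prod.fst := by
        rw [List.map_cons, List.mem_cons] at hz
        rcases hz with h1 | h1
        · exact absurd h1.symm hpz
        · exact h1
      have hn' : (L.map Prod.fst).Nodup := by
        rw [List.map_cons, List.nodup_cons] at hn; exact hn.2
      obtain ⟨A, w, B, rfl, hA, hB⟩ := exists_split hz' hn'
      rw [List.append_assoc, List.cons_append, Fg_eq f hA]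
      have h2 : z ∉ (p :: A).map Prod.fst := by
        rw [List.map_cons, List.mem_cons]
        rintro (h3 | h3)
        · exact hpz h3.symm
        · exact hA h3
      have e2 := Fg_eq f (z := z) (w := w) (A := p :: A) (B := B) h2
      rw [List.cons_append] at e2
      rw [e2, List.append_assoc]
      rfl
  · rw [Fg_of_notMem f hz, Fg_of_notMem f]
    simpa [or_comm] using hz

section hyp

variable {h : ℕ} {T : X → G} {Val : X → G → ℝ → Prop} {Dg : List (X × G) → Prop} {kap : X → ℝ}
  {ε : ℝ} (H : OHyp h T Val Dg kap ε)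

include H

theorem OHyp.vv_eq {z : X} {R : G} {v : ℝ} (hv : Val z R v) : vv Val z R = v := by
  unfold vv
  rw [dif_pos ⟨v, hv⟩]
  exact H.uniq (Exists.choose_spec (⟨v, hv⟩ : ∃ v, Val z R v)) hv

theorem OHyp.rotn {M N : List (X × G)} (hD : Dg (M ++ N)) : Dg (N ++ M) := by
  induction M generalizing N with
  | nil => simpa using hD
  | cons p M ih =>
    have h1 : Dg ((M ++ N) ++ [p]) := H.rot hD
    rw [List.append_assoc] at h1
    have h2 := ih h1
    simpa using h2

theorem OHyp.rotate {L : List (X × G)} (hD : Dg L) (n : ℕ) : Dg (L.rotate n) := by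
  rw [List.rotate_eq_drop_append_take_mod]
  apply H.rotn
  rwa [List.take_append_drop]

theorem OHyp.F_rotate_n {L : List (X × G)} (hD : Dg L) (n : ℕ) (z : X) :
    F h T Val z (L.rotate n) = F h T Val z L := by
  induction n with
  | zero => simp
  | succ n ih =>
    have h1 := H.rotate hD n
    rw [← ih, ← List.rotate_rotate L n 1]
    cases hL : L.rotate n with
    | nil => rfl
    | cons p M =>
      rw [hL] at h1
      rw [List.rotate_cons_succ, List.rotate_zero]
      exact Fg_rotate _ (H.nodup h1) z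

end hyp

end Vale.Agent.P040.H242O
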