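import Vale.Agent.P040.H522.OFin
import Vale.Agent.P040.H908.HexG
import Vale.Agent.P040.H870.Cut

/-!
# P040: `OddMachine`
-/

set_option autoImplicit false

namespace Vale.Agent.P040.H242O

open P040H251 H682

/-- the tripod hexagon inequality -/
theorem hexVt : H908.HexVt :=
  fun _ _ _ _ _ _ _ hg hcol _ hL Ep Em hp hm hpe hme => H870.hex_law hg hcol hL Ep Em hp hm hpe hme

/-- **`OddMachine`, unconditional.** -/
theorem oddMachine : Odd.OddMachine :=
  H522.oddMachine_of_hex fun _ P => H908.hexGeom_of hexVt P

end Vale.Agent.P040.H242O
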