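import Vale.Agent.P040.H242.OCore
import Vale.Agent.P040.H242.Final
import Vale.Agent.P040.H45.OddEnd

/-!
# P040, both parts odd: `OddMachine` from one geometric input
-/

set_option autoImplicit false

namespace Vale.Agent.P040.H242O

open Topo Bp H84 Hz Pst Finset

section near

variable {Z : Type*} [Fintype Z]

/-- The distance of two families of potentials modulo `P` is at most `B`. -/
def NearP (P : ℝ) (f g : Z → ℝ) (B : ℝ) : Prop :=
  ∃ q : Z → ℤ, ∑ z, |f z - g z - P * q z| ≤ B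

theorem NearP.trans {P : ℝ} {f g k : Z → ℝ} {B C : ℝ} (H : NearP P f g B)
    (H' : NearP P g k C) : NearP P f k (B + C) := by
  obtain ⟨q, hq⟩ := H
  obtain ⟨r, hr⟩ := H'
  refine ⟨fun z => q z + r z, le_trans ?_ (add_le_add hq hr)⟩
  rw [← Finset.sum_add_distrib]
  apply Finset.sum_le_sum
  intro z _
  refine le_trans (le_of_eq ?_) (abs_add_le _ _)
  congr 1
  push_cast
  ring

theorem NearP.refl {P : ℝ} (f : Z → ℝ) : NearP P f f 0 :=
  ⟨fun _ => 0, by simp⟩

end near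

section hyp

variable {X G : Type*} [Group G] [Fintype X]
variable {h : ℕ} {T : X → G} {Val : X → G → ℝ → Prop} {Dg : List (X × G) → Prop} {kap : X → ℝ}
  {ε : ℝ} (H : OHyp h T Val Dg kap ε)

include H

theorem OHyp.step {L : List (X × G)} (hL : Dg L) {x : X} {g : G} {y : X} {k : G}
    {R : List (X × G)} (ht : TEq (tp T L) ((x, g) :: (y, k) :: R)) :
    ∃ L', Dg L' ∧ TEq (tp T L') ((y, g * k * g⁻¹) :: (x, g) :: R) ∧
      NearP ((h : ℝ) - 1 / 2) (fun z => F h T Val z L) (fun z => F h T Val z L') 1 := by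
  obtain ⟨c, n, a, b, M, h1, rfl, rfl, rfl, rfl, rfl⟩ := exists_of_TEq ht
  have hD : Dg (a :: b :: M) := h1 ▸ H.rotate hL n
  refine ⟨_, H.tw hD, ⟨c, ?_⟩, 0, ?_⟩
  · refine (fun e => e ▸ List.IsRotated.refl _ : ∀ {l l' : List (X × G)}, l = l' → l ~r l') ?_
    simp only [cj, tp, List.map_cons, gg_conj]
    rw [List.cons.injEq]
    refine ⟨?_, rfl⟩
    rw [Prod.mk.injEq]
    refine ⟨rfl, ?_⟩
    group
  · refine le_trans (le_of_eq ?_) (H.tw_le hD)
    apply Finset.sum_congr rfl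
    intro z _
    rw [← h1, H.F_rotate_n hL n z, abs_sub_comm]
    simp

theorem OHyp.step' {L : List (X × G)} (hL : Dg L) {x : X} {g : G} {y : X} {k : G}
    {R : List (X × G)} (ht : TEq (tp T L) ((x, g) :: (y, k) :: R)) :
    ∃ L', Dg L' ∧ TEq (tp T L') ((y, k) :: (x, k⁻¹ * g * k) :: R) ∧
      NearP ((h : ℝ) - 1 / 2) (fun z => F h T Val z L) (fun z => F h T Val z L') 1 := by
  obtain ⟨c, n, a, b, M, h1, rfl, rfl, rfl, rfl, rfl⟩ := exists_of_TEq ht
  have hD : Dg (a :: b :: M) := h1 ▸ H.rotate hL n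
  refine ⟨_, H.tw' hD, ⟨c, ?_⟩, 0, ?_⟩
  · refine (fun e => e ▸ List.IsRotated.refl _ : ∀ {l l' : List (X × G)}, l = l' → l ~r l') ?_
    simp only [cj, tp, List.map_cons, gg_conj]
    rw [List.cons.injEq, List.cons.injEq]
    refine ⟨rfl, ?_, rfl⟩
    rw [Prod.mk.injEq]
    refine ⟨rfl, ?_⟩
    group
  · refine le_trans (le_of_eq ?_) (H.tw'_le hD)
    apply Finset.sum_congr rfl
    intro z _
    rw [← h1, H.F_rotate_n hL n z, abs_sub_comm]
    simp

theorem OHyp.path {n : ℕ} {L L' : List (X × G)} (p : HzPath n L L') :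
    ∀ S, Dg S → TEq (tp T S) L → ∃ S', Dg S' ∧ TEq (tp T S') L' ∧
      NearP ((h : ℝ) - 1 / 2) (fun z => F h T Val z S) (fun z => F h T Val z S') n := by
  induction p with
  | refl L =>
    intro S hS hs
    exact ⟨S, hS, hs, by simpa using NearP.refl (fun z => F h T Val z S)⟩
  | @rot n L p L' _ ih =>
    intro S hS hs
    refine ih S hS (hs.trans (TEq.of_rot ?_))
    exact ⟨1, by simp⟩
  | @tw n x g y k R L' _ ih =>
    intro S hS hs
    obtain ⟨S1, h0, h1, h2⟩ := H.step hS hs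
    obtain ⟨S2, h3, h4, h5⟩ := ih S1 h0 h1
    refine ⟨S2, h3, h4, ?_⟩
    have := h2.trans h5
    push_cast
    rwa [add_comm (n : ℝ) 1]
  | @tw' n x g y k R L' _ ih =>
    intro S hS hs
    obtain ⟨S1, h0, h1, h2⟩ := H.step' hS hs
    obtain ⟨S2, h3, h4, h5⟩ := ih S1 h0 h1
    refine ⟨S2, h3, h4, ?_⟩
    have := h2.trans h5
    push_cast
    rwa [add_comm (n : ℝ) 1]

theorem OHyp.mem_fst {L : List (X × G)} (hL : Dg L) (hc : Fintype.card X = 2 * h + 1) (z : X) :
    z ∈ L.map Prod.fst := by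
  classical
  have h1 := H.nodup hL
  have h2 : (L.map Prod.fst).length = 2 * h + 1 := by rw [List.length_map, H.len hL]
  have h3 : (L.map Prod.fst).toFinset = Finset.univ := by
    apply Finset.eq_univ_of_card
    rw [List.toFinset_card_of_nodup h1, h2, hc]
  have h4 : z ∈ (L.map Prod.fst).toFinset := by rw [h3]; exact Finset.mem_univ z
  exact List.mem_toFinset.1 h4

/-- **The antipode**, all leaves. -/
theorem OHyp.anti (hc : Fintype.card X = 2 * h + 1) {L L' : List (X × G)} (hL : Dg L)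
    (hL' : Dg L') (ht : TEq (tp T L') (bar (tp T L))) (z : X) :
    ∃ q : ℤ, F h T Val z L' = F h T Val z L + ((h : ℝ) - 1 / 2) / 2 + ((h : ℝ) - 1 / 2) * q :=
  H.anti_of_mem hL hL' ht (H.mem_fst hL hc z)

/-- the pair inequality in integers -/
theorem OHyp.pair (hc : Fintype.card X = 2 * h + 1) {S : Type*} (fr : S → List (X × G))
    (hfr : ∀ s, Dg (fr s)) (cr : S → S → ℕ) (GP : S → S → Prop)
    (hP : ∀ b k, GP b k → ∃ n L L', n ≤ cr b k ∧ TEq (tp T (fr b)) L ∧ HzPath n L L' ∧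
      TEq L' (bar (tp T (fr k)))) :
    ∃ N : S → X → ℤ, (∀ s z, F h T Val z (fr s) = kap z + N s z / 4) ∧ ∀ b k, GP b k →
      ∃ q : X → ℤ, ∑ z, |N b z - N k z - (2 * h - 1) - 2 * (2 * h - 1) * q z| ≤
        4 * (cr b k : ℤ) := by
  have hN : ∀ s z, ∃ n : ℤ, F h T Val z (fr s) = kap z + n / 4 := fun s z =>
    H.quarter (hfr s) (H.mem_fst (hfr s) hc z)
  choose N hN using hN
  refine ⟨N, hN, ?_⟩
  intro b k hbk
  obtain ⟨n, L, L', hn, h1, h2, h3⟩ := hP b k hbk
  obtain ⟨S', hS', h4, q, hq⟩ := H.path h2 (fr b) (hfr b) h1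
  have h5 := H.anti hc (hfr k) hS' (h4.trans h3)
  choose r hr using h5
  refine ⟨fun z => q z + r z, ?_⟩
  have hn' : (n : ℝ) ≤ (cr b k : ℝ) := by exact_mod_cast hn
  have key : ((∑ z, |N b z - N k z - (2 * h - 1) - 2 * (2 * h - 1) * (q z + r z)| : ℤ) : ℝ) ≤
      ((4 * (cr b k : ℤ) : ℤ) : ℝ) := by
    push_cast
    have e : ∀ z, |(N b z : ℝ) - N k z - (2 * h - 1) - 2 * (2 * h - 1) * (q z + r z)| =
        4 * |F h T Val z (fr b) - F h T Val z S' - ((h : ℝ) - 1 / 2) * q z| := by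
      intro z
      rw [hr z, hN b z, hN k z]
      have : |(4 : ℝ)| = 4 := abs_of_pos (by norm_num)
      conv_rhs => rw [← this, ← abs_mul]
      congr 1
      ring
    rw [Finset.sum_congr rfl fun z _ => e z, ← Finset.mul_sum]
    have := hq.trans hn'
    linarith
  exact_mod_cast key

end hyp

/-- **The geometric input** for the leaves `leaf` (an odd number of leaves). -/
def OInput (h : ℕ) (leaf : Fin (2 * h + 1) → ℝ) : Prop :=
  ∃ (Γ : Type) (K : Gaps leaf Γ) (Val : Fin (2 * h + 1) → FreeGroup Γ → ℝ → Prop)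
    (kap : Fin (2 * h + 1) → ℝ) (e : ℝ),
    W.Cyc K ∧ OHyp h (sl K) Val (Dgs leaf K) kap e

/-- **`OddMachine` from the geometric input.** -/
theorem oddMachine_of_input
    (I : ∀ h : ℕ, 1 ≤ h → ∀ leaf : Fin (2 * h + 1) → ℝ, Function.Injective leaf →
      OInput h leaf) : Odd.OddMachine := by
  intro h hh leaf hl
  obtain ⟨Γ, K, Val, kap, e, hK, H⟩ := I h hh leaf hl
  have key : ∀ s : SStar leaf, tp (sl K) (Slot.frl K s) =
      s.rot.map fun x => (x, s.loop K x) := by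
    intro s
    unfold Slot.frl tp
    rw [List.map_map]
    apply List.map_congr_left
    intro x _
    show (x, gg (sl K) (x, s.fw K x)) = (x, s.loop K x)
    rw [s.loop_eq K x]
    rfl
  obtain ⟨N, -, hN⟩ := H.pair (Fintype.card_fin _) (S := SStar leaf) (fun s => Slot.frl K s)
    (fun s => dgs_frl K hK (by omega) s) (fun b k => b.cr k) (fun b k => b.GP k) (by
      intro b k hbk
      obtain ⟨n, L, L', h1, h2, h3, h4⟩ := W.pairPath_loops K hK (by omega) hbk
      refine ⟨n, L, L', h1, ?_, h3, ?_⟩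
      · rw [key]; exact h2
      · rw [key]; exact h4)
  exact ⟨N, hN⟩

end Vale.Agent.P040.H242O
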