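import Vale.Agent.P040.H242.OCoreDef
import Vale.Agent.P040.H242.Frame
import Vale.Agent.P040.H303.Lim

/-!
# P040, both parts odd: the leaf on the base curve, from finite framings to the limit

`FHyp`: the framed values `V`, where the twist at the leaf `w` is only monotone and bounded.
`FHyp.ohyp`: the limit values at `w` give `OHyp`.
-/

set_option autoImplicit false

namespace Vale.Agent.P040.H242O

open H84 Bp H303

variable {X G : Type*} [Group G]

/-- The framed geometric input: at every leaf `z ≠ w` a full twist changes the values by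
`ε * (h - 1/2)`; at the leaf `w` this holds up to a monotone error (sign `σ`), and the total error
is bounded. -/
structure FHyp (h : ℕ) (T : X → G) (V : X → G → ℝ → Prop) (Dg : List (X × G) → Prop)
    (kap : X → ℝ) (ε : ℝ) (w : X) (σ : ℝ) : Prop where
  one_le : 1 ≤ h
  sgn : ε = 1 ∨ ε = -1
  sgn' : σ = 1 ∨ σ = -1
  uniq : ∀ {z R v v'}, V z R v → V z R v' → v = v'
  twist : ∀ {z R v}, z ≠ w → V z R v → V z ((T z)⁻¹ * R * T z) (v + ε * (h - 1 / 2))
  step : ∀ {R v}, V w R v → ∃ v', V w ((T w)⁻¹ * R * T w) v' ∧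
    0 ≤ σ * (v' - (v + ε * (h - 1 / 2)))
  bound : ∀ {R v}, V w R v → ∃ b : ℝ, ∀ (k : ℕ) v', V w (tws (T w) k R) v' →
    σ * (v' - (v + k * (ε * (h - 1 / 2)))) ≤ b
  lat : ∀ {z R v}, V z R v → ∃ n : ℤ, v = kap z + n / 2
  cent : ∀ (z : X) (c : G), c * T z = T z * c → ∃ j : ℤ, c = T z ^ j
  rot : ∀ {p : X × G} {L}, Dg (p :: L) → Dg (L ++ [p])
  len : ∀ {L}, Dg L → L.length = 2 * h + 1
  nodup : ∀ {L : List (X × G)}, Dg L → (L.map Prod.fst).Nodup
  prod : ∀ {L : List (X × G)}, Dg L → pr T L = 1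
  tw : ∀ {p q : X × G} {L}, Dg (p :: q :: L) → Dg ((q.1, gg T p * q.2) :: p :: L)
  tw' : ∀ {p q : X × G} {L}, Dg (p :: q :: L) → Dg (q :: (p.1, (gg T q)⁻¹ * p.2) :: L)
  tri : ∀ {a b c : X × G} {A B L : List (X × G)},
    Dg (a :: (A ++ b :: (B ++ c :: L))) → A.length + B.length + 1 = h →
    ∃ c1 c2 a2 a3 b3 b1 : ℝ,
      V c.1 (c.2⁻¹ * (pr T A * gg T b * pr T B) * c.2) c1 ∧
      V c.1 (c.2⁻¹ * (gg T a * pr T A * pr T B) * c.2) c2 ∧
      V a.1 (a.2⁻¹ * (pr T A * pr T B * gg T c) * a.2) a2 ∧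
      V a.1 (a.2⁻¹ * (pr T A * gg T b * pr T B) * a.2) a3 ∧
      V b.1 (b.2⁻¹ * (pr T B * gg T a * pr T A) * b.2) b3 ∧
      V b.1 (b.2⁻¹ * (pr T B * gg T c * pr T A) * b.2) b1 ∧
      |c1 - c2| + |a2 - a3| + |b3 - b1| ≤ 1

/-- the limit values -/
def LV (h : ℕ) (T : X → G) (V : X → G → ℝ → Prop) (ε : ℝ) (w : X) (z : X) (R : G) (v : ℝ) :
    Prop :=
  (z = w → Lim (V w) (T w) (ε * (h - 1 / 2)) R v) ∧ (z ≠ w → V z R v)

section hyp

variable {h : ℕ} {T : X → G} {V : X → G → ℝ → Prop} {Dg : List (X × G) → Prop} {kap : X → ℝ}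
  {ε : ℝ} {w : X} {σ : ℝ}

theorem LV.of_ne {z : X} {R : G} {v : ℝ} (hz : z ≠ w) : LV h T V ε w z R v ↔ V z R v :=
  ⟨fun hh => hh.2 hz, fun hh => ⟨fun hc => absurd hc hz, fun _ => hh⟩⟩

theorem LV.of_eq {R : G} {v : ℝ} : LV h T V ε w w R v ↔ Lim (V w) (T w) (ε * (h - 1 / 2)) R v :=
  ⟨fun hh => hh.1 rfl, fun hh => ⟨fun _ => hh, fun hc => absurd rfl hc⟩⟩

variable (H : FHyp h T V Dg kap ε w σ)

include H

theorem FHyp.exists_lim {R : G} {v : ℝ} (hv : V w R v) :
    ∃ u, Lim (V w) (T w) (ε * (h - 1 / 2)) R u := by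
  obtain ⟨b, hb⟩ := H.bound hv
  obtain ⟨u, hu, -⟩ := Lim.exists (V := V w) (t := T w) (c := ε * (h - 1 / 2)) (κ := kap w)
    (d := 1 / 2) (by norm_num)
    (fun {R v} hh => by
      obtain ⟨n, hn⟩ := H.lat hh
      exact ⟨n, by rw [hn]; ring⟩)
    (by
      rcases H.sgn with he | he
      · exact ⟨2 * h - 1, by rw [he]; push_cast; ring⟩
      · exact ⟨-(2 * h - 1), by rw [he]; push_cast; ring⟩)
    H.sgn' (fun {R v} hh => H.step hh) (fun h1 h2 => H.uniq h1 h2) hv hb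
  exact ⟨u, hu⟩

open Classical in
/-- the arm `p`, twisted `k` times if it ends at `w` -/
noncomputable def frk (T : X → G) (w : X) (k : ℕ) (p : X × G) : X × G :=
  if p.1 = w then (p.1, p.2 * T p.1 ^ k) else p

omit H in
theorem frk_fst (T : X → G) (w : X) (k : ℕ) (p : X × G) : (frk T w k p).1 = p.1 := by
  unfold frk; split_ifs <;> rfl

omit H in
theorem gg_frk (T : X → G) (w : X) (k : ℕ) (p : X × G) : gg T (frk T w k p) = gg T p := by
  unfold frk
  split_ifs with hp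
  · unfold gg
    simp only
    group
  · rfl

open Classical in
/-- the value at one arm: at large framing it is the limit value plus the shift -/
theorem FHyp.val_arm (p : X × G) (Y : G) {v : ℝ} (hv : V p.1 (p.2⁻¹ * Y * p.2) v) :
    ∃ (u : ℝ) (s : ℕ → ℝ) (K : ℕ), LV h T V ε w p.1 (p.2⁻¹ * Y * p.2) u ∧
      (∀ k, s k = if p.1 = w then k * (ε * (h - 1 / 2)) else 0) ∧
      ∀ k, K ≤ k → ∀ v', V p.1 ((frk T w k p).2⁻¹ * Y * (frk T w k p).2) v' → v' = u + s k := by
  classical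
  by_cases hp : p.1 = w
  · have hv' : V w (p.2⁻¹ * Y * p.2) v := by rw [← hp]; exact hv
    obtain ⟨u, hu⟩ := H.exists_lim hv'
    obtain ⟨K, hK⟩ := hu
    refine ⟨u, fun k => k * (ε * (h - 1 / 2)), K, ?_, fun k => by rw [if_pos hp], ?_⟩
    · rw [hp]
      exact LV.of_eq.2 ⟨K, hK⟩
    · intro k hk v' hv'
      have h1 := hK k hk
      have e : tws (T w) k (p.2⁻¹ * Y * p.2) = (frk T w k p).2⁻¹ * Y * (frk T w k p).2 := by
        unfold frk tws
        rw [if_pos hp]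
        simp only [hp]
        group
      rw [e] at h1
      rw [hp] at hv'
      exact H.uniq hv' h1
  · refine ⟨v, fun _ => 0, 0, (LV.of_ne hp).2 hv, fun k => by rw [if_neg hp], ?_⟩
    intro k _ v' hv'
    have e : frk T w k p = p := by unfold frk; rw [if_neg hp]
    rw [e] at hv'
    rw [add_zero]
    exact H.uniq hv' hv

theorem FHyp.dg_frk {p : X × G} {A B : List (X × G)} (hD : Dg (A ++ p :: B)) (k : ℕ) :
    Dg (A ++ frk T w k p :: B) := by
  unfold frk
  split_ifs with hp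
  · have h1 : Dg ((p :: B) ++ A) := rotn_of (Dg := Dg) H.rot hD
    rw [List.cons_append] at h1
    have h2 := frame_zpow (T := T) (Dg := Dg) H.rot H.prod H.tw H.tw' (z := p.1) (w := p.2) h1 k
    rw [zpow_natCast, ← List.cons_append] at h2
    exact rotn_of (Dg := Dg) H.rot h2
  · exact hD

/-- **From finite framings to the limit.** -/
theorem FHyp.ohyp : OHyp h T (LV h T V ε w) Dg kap ε where
  one_le := H.one_le
  sgn := H.sgn
  uniq := by
    intro z R v v' h1 h2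
    by_cases hz : z = w
    · subst hz
      exact Lim.uniq (V := V z) (fun h1 h2 => H.uniq h1 h2) (LV.of_eq.1 h1) (LV.of_eq.1 h2)
    · exact H.uniq ((LV.of_ne hz).1 h1) ((LV.of_ne hz).1 h2)
  twist := by
    intro z R v h1
    by_cases hz : z = w
    · subst hz
      exact LV.of_eq.2 (Lim.twist (LV.of_eq.1 h1))
    · exact (LV.of_ne hz).2 (H.twist hz ((LV.of_ne hz).1 h1))
  lat := by
    intro z R v h1
    by_cases hz : z = w
    · subst hz
      obtain ⟨n, hn⟩ := Lim.lat (V := V z) (κ := kap z) (d := 1 / 2)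
        (fun {R v} hh => by
          obtain ⟨n, hn⟩ := H.lat hh
          exact ⟨n, by rw [hn]; ring⟩)
        (by
          rcases H.sgn with he | he
          · exact ⟨2 * h - 1, by rw [he]; push_cast; ring⟩
          · exact ⟨-(2 * h - 1), by rw [he]; push_cast; ring⟩)
        (LV.of_eq.1 h1)
      exact ⟨n, by rw [hn]; ring⟩
    · exact H.lat ((LV.of_ne hz).1 h1)
  cent := H.cent
  rot := H.rot
  len := H.len
  nodup := H.nodup
  prod := H.prod
  tw := H.tw
  tw' := H.tw'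
  tri := by
    intro a b c A B L hD hl
    obtain ⟨c1, c2, a2, a3, b3, b1, hc1, hc2, ha2, ha3, hb3, hb1, -⟩ := H.tri hD hl
    obtain ⟨uc1, s1, K1, e1, f1, g1⟩ := H.val_arm c _ hc1
    obtain ⟨uc2, s2, K2, e2, f2, g2⟩ := H.val_arm c _ hc2
    obtain ⟨ua2, s3, K3, e3, f3, g3⟩ := H.val_arm a _ ha2
    obtain ⟨ua3, s4, K4, e4, f4, g4⟩ := H.val_arm a _ ha3
    obtain ⟨ub3, s5, K5, e5, f5, g5⟩ := H.val_arm b _ hb3
    obtain ⟨ub1, s6, K6, e6, f6, g6⟩ := H.val_arm b _ hb1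
    refine ⟨uc1, uc2, ua2, ua3, ub3, ub1, e1, e2, e3, e4, e5, e6, ?_⟩
    obtain ⟨k, hk⟩ : ∃ k, k = K1 + K2 + K3 + K4 + K5 + K6 := ⟨_, rfl⟩
    have hD1 : Dg (frk T w k a :: (A ++ b :: (B ++ c :: L))) := by
      have := H.dg_frk (A := []) (p := a) (B := A ++ b :: (B ++ c :: L)) hD k
      simpa using this
    have hD2 : Dg (frk T w k a :: (A ++ frk T w k b :: (B ++ c :: L))) := by
      have := H.dg_frk (A := frk T w k a :: A) (p := b) (B := B ++ c :: L) (by simpa using hD1) k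
      simpa using this
    have hD3 : Dg (frk T w k a :: (A ++ frk T w k b :: (B ++ frk T w k c :: L))) := by
      have := H.dg_frk (A := frk T w k a :: (A ++ frk T w k b :: B)) (p := c) (B := L)
        (by simpa using hD2) k
      simpa using this
    obtain ⟨c1', c2', a2', a3', b3', b1', hc1', hc2', ha2', ha3', hb3', hb1', hs⟩ :=
      H.tri hD3 hl
    rw [frk_fst, gg_frk] at hc1' hc2' ha2' ha3' hb3' hb1'
    have r1 := g1 k (by omega) _ hc1'
    have r2 := g2 k (by omega) _ hc2'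
    have r3 := g3 k (by omega) _ ha2'
    have r4 := g4 k (by omega) _ ha3'
    have r5 := g5 k (by omega) _ hb3'
    have r6 := g6 k (by omega) _ hb1'
    have q1 : s1 k = s2 k := by rw [f1, f2]
    have q2 : s3 k = s4 k := by rw [f3, f4]
    have q3 : s5 k = s6 k := by rw [f5, f6]
    rw [r1, r2, r3, r4, r5, r6, q1, q2, q3] at hs
    have t1 : uc1 + s2 k - (uc2 + s2 k) = uc1 - uc2 := by ring
    have t2 : ua2 + s4 k - (ua3 + s4 k) = ua2 - ua3 := by ring
    have t3 : ub3 + s6 k - (ub1 + s6 k) = ub3 - ub1 := by ring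
    rw [t1, t2, t3] at hs
    exact hs

end hyp

end Vale.Agent.P040.H242O
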