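import Vale.Agent.P040.H242.OFinal
import Vale.Agent.P040.H242.OLim

/-!
# P040, both parts odd: `OddMachine` from the framed geometric input
-/

set_option autoImplicit false

namespace Vale.Agent.P040.H242O

open Topo Bp H84 Hz Pst

/-- **The framed geometric input** for the leaves `leaf` (an odd number of leaves). -/
def FInput (h : ℕ) (leaf : Fin (2 * h + 1) → ℝ) : Prop :=
  ∃ (Γ : Type) (K : Gaps leaf Γ) (V : Fin (2 * h + 1) → FreeGroup Γ → ℝ → Prop)
    (kap : Fin (2 * h + 1) → ℝ) (e : ℝ) (w : Fin (2 * h + 1)) (σ : ℝ),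
    W.Cyc K ∧ FHyp h (sl K) V (Dgs leaf K) kap e w σ

theorem oInput_of_framed {h : ℕ} {leaf : Fin (2 * h + 1) → ℝ} (H : FInput h leaf) :
    OInput h leaf := by
  obtain ⟨Γ, K, V, kap, e, w, σ, hK, H⟩ := H
  exact ⟨Γ, K, _, kap, e, hK, H.ohyp⟩

theorem oddMachine_of_framed
    (I : ∀ h : ℕ, 1 ≤ h → ∀ leaf : Fin (2 * h + 1) → ℝ, Function.Injective leaf →
      FInput h leaf) : Odd.OddMachine :=
  oddMachine_of_input fun h hh leaf hl => oInput_of_framed (I h hh leaf hl)

end Vale.Agent.P040.H242O
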