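import Vale.Agent.P040.H242.OVal
import Vale.Agent.P040.H242.OTop
import Vale.Agent.P040.H251.OUniqT
import Vale.Agent.P040.H610.OTri

/-!
# P040, both parts odd: the instance of `FHyp` for the curves of star diagrams

The remaining inputs are the twist at the leaves `z ≠ w`, the step and the bound at the leaf `w`,
and the hexagon rule.
-/

set_option autoImplicit false

namespace Vale.Agent.P040.H242O

open Pst P040H251 Vale.Agent.P040.H906 H682 ToCrv H84 H303

variable {h : ℕ}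

/-- **(T)** the twist around a leaf `z ≠ w` -/
def OTwist (P : OData h) (T : VApi ℝ) : Prop :=
  ∀ {z R v}, z ≠ P.w → P.ValT T z R v →
    P.ValT T z ((sl P.G0 z)⁻¹ * R * sl P.G0 z) (v + (-1) * ((h : ℝ) - 1 / 2))

/-- **(W1)** the twist around the leaf `w` -/
def OStep (P : OData h) (T : VApi ℝ) (σ : ℝ) : Prop :=
  ∀ {R v}, P.ValT T P.w R v → ∃ v', P.ValT T P.w ((sl P.G0 P.w)⁻¹ * R * sl P.G0 P.w) v' ∧
    0 ≤ σ * (v' - (v + (-1) * ((h : ℝ) - 1 / 2)))

/-- **(W2)** the total error is bounded -/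
def OBound (P : OData h) (T : VApi ℝ) (σ : ℝ) : Prop :=
  ∀ {R v}, P.ValT T P.w R v → ∃ b : ℝ, ∀ (k : ℕ) v',
    P.ValT T P.w (tws (sl P.G0 P.w) k R) v' →
    σ * (v' - (v + k * ((-1) * ((h : ℝ) - 1 / 2)))) ≤ b

/-- existence of the values of doubled sub-stars -/
theorem exVal (P : OData h) (T : VApi ℝ) : OTri.ExVal P T (P.ValT T) := by
  intro S hS ε h0 hε A B z p hT E hC
  exact exists_valT P T hS hε h0 hT (by linarith) le_rfl hC

/-- **The instance.** -/
theorem fHyp (P : OData h) {T : VApi ℝ} {kap : Fin (2 * h + 1) → ℝ} {σ : ℝ}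
    (hσ : σ = 1 ∨ σ = -1)
    (hlat : ∀ {z R v}, P.ValT T z R v → ∃ n : ℤ, v = kap z + n / 2)
    (ht : OTwist P T) (hs : OStep P T σ) (hb : OBound P T σ) (hx : OTri.HexGeom P T) :
    FHyp h (sl P.G0) (P.ValT T) (Dgs P.pos P.G0) kap (-1) P.w σ where
  one_le := P.one_le
  sgn := Or.inr rfl
  sgn' := hσ
  uniq := fun h1 h2 => valT_uniq h1 h2
  twist := fun hz h1 => ht hz h1
  step := fun h1 => hs h1
  bound := fun h1 => hb h1
  lat := fun h1 => hlat h1
  cent := fun z c hc => cent_G0 P z c hc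
  rot := fun hD => hD.rot
  len := fun hD => by simpa using hD.len
  nodup := fun hD => hD.nodup
  prod := fun hD => hD.prod
  tw := fun hD => hD.tw
  tw' := fun hD => hD.tw'
  tri := fun hD hl => OTri.tri_of (exVal P T) hx hD hl

/-- **The framed geometric input.** -/
theorem fInput (hh : 1 ≤ h) (leaf : Fin (2 * h + 1) → ℝ) (hl : Function.Injective leaf) {σ : ℝ}
    (hσ : σ = 1 ∨ σ = -1) (ht : OTwist (mkOData hh leaf hl) vminus)
    (hs : OStep (mkOData hh leaf hl) vminus σ) (hb : OBound (mkOData hh leaf hl) vminus σ)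
    (hx : OTri.HexGeom (mkOData hh leaf hl) vminus) : FInput h leaf :=
  ⟨ℕ, (mkOData hh leaf hl).G0, (mkOData hh leaf hl).ValT vminus,
    fun _ => ((h : ℝ) + 1 / 2) / 2, -1, (mkOData hh leaf hl).w, σ, cyc_G0 _,
    fHyp (mkOData hh leaf hl) hσ (fun h1 => lat_minus h1) ht hs hb hx⟩

/-- **`OddMachine`** from the four remaining rows. -/
theorem oddMachine_of_rows {σ : ℝ} (hσ : σ = 1 ∨ σ = -1)
    (H : ∀ (h : ℕ) (P : OData h), OTwist P vminus ∧ OStep P vminus σ ∧ OBound P vminus σ ∧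
      OTri.HexGeom P vminus) : Odd.OddMachine :=
  oddMachine_of_framed fun h hh leaf hl => fInput hh leaf hl hσ
    (fun {_ _ _} => (H h _).1) (fun {_ _} => (H h _).2.1) (fun {_ _} => (H h _).2.2.1)
    (H h _).2.2.2

end Vale.Agent.P040.H242O
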