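import Vale.Agent.P040.H242.OValDef
import Vale.Agent.P040.H242.DblWord
import Vale.Agent.P040.H112.Cent
import Vale.Agent.P040.H242.Dgs
import Vale.Agent.P040.H709.Lat
import Vale.Agent.P040.W.Lab

/-!
# P040, both parts odd: the framed values of doubled sub-stars, lattice, centralizers
-/

set_option autoImplicit false

namespace Vale.Agent.P040.H242O

open Pst P040H251 Vale.Agent.P040.H906 H682 ToCrv

variable {h : ℕ} (P : OData h)

/-- the points of a doubled sub-star outside the two copies of `x` are far away -/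
theorem dbl_far {ι : Type*} {ε : ℝ} {S T : List (ι × List ℝ)} (hε : Sepd ε (pts S)) (h0 : 0 < ε)
    (hT : ∀ q ∈ T, q ∈ S) {x w : ℝ} (hx : x ∈ pts S) (hw : w ∈ dbl ε T) :
    w = x - ε ∨ w = x + ε ∨ w < x - 2 * ε ∨ x + 2 * ε < w := by
  obtain ⟨q, hq, a, ha, σ, hσ, rfl⟩ := mem_dbl hw
  have haS : a ∈ pts S := List.mem_flatMap.2 ⟨q, hT q hq, ha⟩
  rw [abs_of_pos h0] at hσ
  by_cases hax : a = x
  · subst hax
    rcases abs_eq h0.le |>.1 hσ with h1 | h1
    · right; left; rw [h1]
    · left; rw [h1]; ring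
  · have h1 := hε a haS x hx hax
    have h2 := abs_le.1 hσ.le
    rcases lt_abs.1 h1 with h3 | h3
    · right; right; right; linarith [h2.1]
    · right; right; left; linarith [h2.2]

/-- **Existence.** A consistent function on the doubled sub-star gives the value of the class of
the curve, read from any of its leaves (which is cut between `pos z + ε` and `pos z + 2 ε`). -/
theorem exists_valT (T : VApi ℝ) {S : List (Fin (2 * h + 1) × List ℝ)} (hS : IsStar P.pos S)
    {ε : ℝ} (hε : Sepd ε (pts S)) (h0 : 0 < ε) {A B : List (Fin (2 * h + 1) × List ℝ)}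
    {z : Fin (2 * h + 1)} {p : List ℝ} (hT : ∀ q ∈ A ++ (z, p) :: B, q ∈ S) {t : ℝ}
    (ht : P.pos z + ε < t) (ht' : t ≤ P.pos z + 2 * ε) {E : ℝ → ℝ}
    (hC : Crv (P.DC z t) false (dbl ε (A ++ (z, p) :: B)) E) :
    P.ValT T z ((Pst.wz P.G0 z p)⁻¹ * ((B ++ A).map fun q => lp P.G0 q.1 q.2).prod *
        Pst.wz P.G0 z p)
      (T.val false (dbl ε (A ++ (z, p) :: B)) E - E (P.pos z + ε)) := by
  have hz : (z, p) ∈ S := hT _ (by simp)
  obtain ⟨l, hl⟩ := hS.ends (z, p) hz
  simp only at hl
  have hpne : p ≠ [] := by rw [hl]; simp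
  have hodd : Odd ((dbl ε A).length + idx p) := (dbl_length_even ε A).add_odd (odd_idx hpne)
  obtain ⟨c1, c2⟩ := T.crv_rot_odd hC hodd
  rw [dbl_rotate hl, Bool.not_false] at c1 c2
  have hpz : P.pos z ∈ pts S := hS.leaf_mem z
  have e1 : p.dropLast = l := by rw [hl]; simp
  have e2 : ∀ δ, sh δ p = sh δ l ++ [P.pos z + sg l.length δ] := by
    intro δ
    rw [hl, sh_append, sh_cons, sh_nil]
  refine ⟨t, P.pos z + ε, P.pos z - ε, rest ε p (B ++ A), E, c1, ?_, ?_, ?_⟩
  · refine ⟨?_, by linarith, by linarith, ht, ?_, ?_, ?_⟩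
    · rcases hf : fl l.length true with _ | _
      · left
        have e4 : sg l.length ε = -ε := by rw [sg_eq, hf]; simp
        unfold rest
        rw [e1, hf, if_neg (by simp), e2 ε, e4]
        simp [sub_eq_add_neg]
      · right
        have e3 : sg l.length (-ε) = -ε := by rw [sg_eq, hf]; simp
        unfold rest
        rw [e1, hf, if_pos rfl, e2 (-ε), e3, ← List.append_assoc, ← List.append_assoc,
          List.getLast?_append]
        simp [sub_eq_add_neg]
    · intro w hw hh
      have hw' : w ∈ dbl ε (A ++ (z, p) :: B) := by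
        have : w ∈ (dbl ε (A ++ (z, p) :: B)).rotate ((dbl ε A).length + idx p) := by
          rw [dbl_rotate hl]
          exact List.mem_cons_of_mem _ hw
        exact List.mem_rotate.1 this
      have hne : w ≠ P.pos z + ε := by
        rintro rfl
        exact (List.nodup_cons.1 c1.cl.nodup).1 hw
      rcases dbl_far hε h0 hT hpz hw' with h1 | h1 | h1 | h1
      · linarith [hh.1]
      · exact hne h1
      · linarith [hh.1]
      · linarith [hh.2]
    · refine P.rk_congr (by linarith) ?_
      intro x hx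
      have hlt : P.pos x < P.pos z := hx.2
      have := hε.lt (hS.leaf_mem x) hpz hlt
      linarith [hx.1]
    · refine P.rk_succ z (by linarith) ?_
      intro x hx
      have hlt : P.pos z < P.pos x := hx.1
      have := hε.lt hpz (hS.leaf_mem x) hlt
      linarith [hx.2]
  · refine hS.wd_rest P.G0 hε h0 hz (B ++ A) ?_
    intro q hq
    apply hT
    simp only [List.mem_append, List.mem_cons] at hq ⊢
    tauto
  · rw [c2]

/-! ### the letters -/

theorem cyc_G0 : W.Cyc P.G0 := by
  intro a c ha hc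
  show P.rk a % (2 * h + 1) = P.rk c % (2 * h + 1)
  have h1 : P.rk a = 0 := by
    unfold OData.rk
    rw [Finset.card_eq_zero, Finset.filter_eq_empty_iff]
    intro i _
    exact not_lt.2 (ha i).le
  have h2 : P.rk c = 2 * h + 1 := by
    unfold OData.rk
    rw [Finset.filter_true_of_mem fun i _ => hc i]
    simp
  rw [h1, h2]
  simp

theorem lt_ne_rt (z : Fin (2 * h + 1)) : P.G0.lt z ≠ P.G0.rt z := by
  show P.rk (P.pos z) ≠ (P.rk (P.pos z) + 1) % (2 * h + 1)
  have h1 := P.rk_pos_lt z
  have h2 := P.one_le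
  rcases Nat.lt_or_ge (P.rk (P.pos z) + 1) (2 * h + 1) with h3 | h3
  · rw [Nat.mod_eq_of_lt h3]; omega
  · have h4 : P.rk (P.pos z) + 1 = 2 * h + 1 := by omega
    rw [h4, Nat.mod_self]
    omega

theorem cent_G0 (z : Fin (2 * h + 1)) (c : FreeGroup ℕ) (hc : c * sl P.G0 z = sl P.G0 z * c) :
    ∃ j : ℤ, c = sl P.G0 z ^ j := by
  refine H112.cent_mul_inv (lt_ne_rt P z) ?_
  show c * sl P.G0 z * c⁻¹ = sl P.G0 z
  rw [hc]
  group

/-- balanced pages: the leaf `0` is on the base curve -/
def mkOData (hh : 1 ≤ h) (leaf : Fin (2 * h + 1) → ℝ) (hl : Function.Injective leaf) :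
    OData h where
  pos := leaf
  inj := hl
  w := ⟨0, by omega⟩
  pg := fun i => decide (i.val ≤ h)
  bal := by
    intro b
    have k1 : (Finset.univ.filter fun i : Fin (2 * h + 1) => i.val ≤ h).card = h + 1 := by
      have : (Finset.univ.filter fun i : Fin (2 * h + 1) => i.val ≤ h) =
          Finset.univ.filter fun i : Fin (2 * h + 1) => i.val < h + 1 := by
        ext i
        simp
      rw [this, Fin.card_filter_val_lt]
      omega
    have k2 : (⟨0, by omega⟩ : Fin (2 * h + 1)) ∈
        Finset.univ.filter fun i : Fin (2 * h + 1) => i.val ≤ h := by simp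
    cases b
    · have h1 : (Finset.univ.filter fun i : Fin (2 * h + 1) =>
          i ≠ ⟨0, by omega⟩ ∧ decide (i.val ≤ h) = false) =
          Finset.univ \ (Finset.univ.filter fun i : Fin (2 * h + 1) => i.val ≤ h) := by
        ext i
        simp only [Finset.mem_filter, Finset.mem_univ, true_and, Finset.mem_sdiff,
          decide_eq_false_iff_not]
        constructor
        · exact fun hh => hh.2
        · intro hh
          refine ⟨?_, hh⟩
          rintro rfl
          exact hh (Nat.zero_le _)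
      rw [h1, Finset.card_sdiff_of_subset (Finset.filter_subset _ _), k1, Finset.card_univ,
        Fintype.card_fin]
      omega
    · have h1 : (Finset.univ.filter fun i : Fin (2 * h + 1) =>
          i ≠ ⟨0, by omega⟩ ∧ decide (i.val ≤ h) = true) =
          (Finset.univ.filter fun i : Fin (2 * h + 1) => i.val ≤ h).erase ⟨0, by omega⟩ := by
        ext i
        simp only [Finset.mem_filter, Finset.mem_univ, true_and, Finset.mem_erase,
          decide_eq_true_eq]
      rw [h1, Finset.card_erase_of_mem k2, k1]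
      omega
  one_le := hh

/-! ### the lattice -/

/-- doubled masses -/
def dD {α : Type*} [LinearOrder α] (D : Dat α) : Dat α where
  lab := D.lab
  mono := D.mono
  C := fun b j => 2 * D.C b j
  Cmono := fun b i j hij => by
    have := D.Cmono b hij
    show 2 * D.C b i ≤ 2 * D.C b j
    linarith
  M := 2 * D.M
  pos := by have := D.pos; linarith
  tot := fun b i j => by have := D.tot b i j; linarith

theorem crv_dD {α : Type*} [LinearOrder α] [Inhabited α] {D : Dat α} {s : Bool} {L : List α}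
    {E : α → ℝ} (hC : Crv D s L E) : Crv (dD D) s L (fun x => 2 * E x) where
  cl := hC.cl
  pl := hC.pl
  inc := by
    intro b x hx
    have := hC.inc b x hx
    show sg b * (2 * E (fO s L b x) - 2 * E x) =
      2 * D.C b (D.lab (fO s L b x)) - 2 * D.C b (D.lab x) +
        (if x < fO s L b x then - (2 * D.M) else 2 * D.M)
    have e : (if x < fO s L b x then - (2 * D.M) else 2 * D.M) =
        2 * (if x < fO s L b x then - D.M else D.M) := by split_ifs <;> ring
    rw [e]
    linarith

theorem mu_half (i : Fin (2 * h + 1)) (b : Bool) : ∃ n : ℤ, 2 * P.mu i b = n := by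
  unfold OData.mu
  split_ifs
  · exact ⟨1, by norm_num⟩
  · exact ⟨2, by norm_num⟩
  · exact ⟨0, by norm_num⟩

theorem cum_half (b : Bool) (j : ℕ) : ∃ n : ℤ, 2 * P.cum b j = n := by
  choose f hf using fun i => mu_half P i b
  refine ⟨∑ i ∈ Finset.univ.filter (fun i => P.rk (P.pos i) < j), f i, ?_⟩
  unfold OData.cum
  rw [Finset.mul_sum]
  push_cast
  exact Finset.sum_congr rfl fun i _ => hf i

theorem nin_half (z : Fin (2 * h + 1)) (b : Bool) : ∃ n : ℤ, 2 * P.nin z b = n := by
  unfold OData.nin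
  split_ifs
  · exact ⟨1, by norm_num⟩
  · exact ⟨0, by norm_num⟩
  · exact ⟨1, by norm_num⟩
  · exact ⟨0, by norm_num⟩

theorem cc_half (z : Fin (2 * h + 1)) (b : Bool) (j : ℕ) : ∃ n : ℤ, 2 * P.cc z b j = n := by
  unfold OData.cc
  split_ifs
  · exact cum_half P b _
  · obtain ⟨n, hn⟩ := cum_half P b (P.rk (P.pos z))
    obtain ⟨m, hm⟩ := nin_half P z b
    refine ⟨n + m, ?_⟩
    push_cast
    linarith
  · exact cum_half P b _

variable {P}

/-- the phases of a curve -/
theorem crv_half {z : Fin (2 * h + 1)} {t : ℝ} {s : Bool} {L : List ℝ} {E : ℝ → ℝ}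
    (hC : Crv (P.DC z t) s L E) {r : ℝ} (hr : r ∈ L) {x : ℝ} (hx : x ∈ L) :
    ∃ n : ℤ, E x - E r = n / 2 + if upc s L x = upc s L r then 0 else ((h : ℝ) + 1 / 2) / 2 := by
  obtain ⟨n, hn⟩ := H709.crv_lat (crv_dD hC) (fun b j => cc_half P z b j)
    (k := 2 * (h : ℤ) + 1) (by
      show 2 * (2 * (((h : ℝ) + 1 / 2) / 2)) = _
      push_cast
      ring) (colOK_upc hC.cl s) hr x hx
  refine ⟨n, ?_⟩
  have e : (dD (P.DC z t)).M = (h : ℝ) + 1 / 2 := by
    show 2 * (((h : ℝ) + 1 / 2) / 2) = _
    ring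
  rw [e] at hn
  split_ifs at hn ⊢ <;> linarith

theorem upc_head {L : List ℝ} {r : ℝ} : upc true (r :: L) r = true := by
  unfold upc
  simp [pgk]

/-- **Lattice.** The values with the selector `c₊`. -/
theorem lat_plus {z : Fin (2 * h + 1)} {R : FreeGroup ℕ} {v : ℝ} (hv : P.ValT vplus z R v) :
    ∃ n : ℤ, v = 0 + n / 2 := by
  obtain ⟨t, r, l, L, E, hC, -, -, rfl⟩ := hv
  obtain ⟨i, hi, hp, he⟩ := vplus_mem hC
  obtain ⟨n, hn⟩ := crv_half hC (r := r) (by simp) (g_mem hi)
  rw [upc_g hC.cl.nodup hi, hp, upc_head, if_pos rfl] at hn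
  exact ⟨n, by rw [he]; linarith⟩

/-- **Lattice.** The values with the selector `c₋`. -/
theorem lat_minus {z : Fin (2 * h + 1)} {R : FreeGroup ℕ} {v : ℝ} (hv : P.ValT vminus z R v) :
    ∃ n : ℤ, v = ((h : ℝ) + 1 / 2) / 2 + n / 2 := by
  obtain ⟨t, r, l, L, E, hC, -, -, rfl⟩ := hv
  obtain ⟨i, hi, hp, he⟩ := vminus_mem hC
  obtain ⟨n, hn⟩ := crv_half hC (r := r) (by simp) (g_mem hi)
  rw [upc_g hC.cl.nodup hi, hp, upc_head, if_neg (by simp)] at hn
  exact ⟨n, by rw [he]; linarith⟩

end Vale.Agent.P040.H242O
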