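import Vale.Agent.P040.H682.OData
import Vale.Agent.P040.H251.Plus2

/-!
# P040, both parts odd: the framed values with a coloured selector (definition)
-/

set_option autoImplicit false

namespace Vale.Agent.P040.H682.OData

open P040H251

variable {h : ℕ} (P : OData h)

/-- **The framed values.** As `OData.Val`, for a coloured selector `T`. -/
def ValT (T : VApi ℝ) (z : Fin (2 * h + 1)) (R : FreeGroup ℕ) (v : ℝ) : Prop :=
  ∃ (t r l : ℝ) (L : List ℝ) (E : ℝ → ℝ), Crv (P.DC z t) true (r :: L) E ∧ P.Fat z t r l L ∧
    Pst.wd P.G0 true L = R * FreeGroup.of (P.G0.lt z) ∧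
    v = T.val true (r :: L) E - E r

end Vale.Agent.P040.H682.OData
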