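import Vale.Agent.P040.H198.SlotStar
import Vale.Agent.P040.H242.ConvWord

/-!
# The rotation and the words of a slot star
-/

set_option autoImplicit false

namespace Vale.Agent.P040.Slot

open Topo HH

variable {n : ℕ} {C : CompDiag n} {b : Fin n}

namespace Slt

variable (S : Slt C b) {ε : ℝ}

/-- the angle function in terms of shifted points -/
theorem th_val (h : GoodE C ε) {a a' : LR} (ha : a ∈ AL C) (ha' : a' ∈ AL C) (h1 : a ≠ S.hub)
    (h2 : a' ≠ S.hub) :
    Bp.th (val ε S.hub) (val ε a) < Bp.th (val ε S.hub) (val ε a') ↔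
      (S.hub < a ∧ a < a') ∨ (a < a' ∧ a' < S.hub) ∨ (a' < S.hub ∧ S.hub < a) := by
  have hm := strictMonoOn_val h
  have g1 : val ε a ≠ val ε S.hub := fun e => h1 (hm.injOn ha S.hub_mem e)
  have g2 : val ε a' ≠ val ε S.hub := fun e => h2 (hm.injOn ha' S.hub_mem e)
  rw [Bp.th_lt_iff g1 g2, hm.lt_iff_lt S.hub_mem ha, hm.lt_iff_lt ha ha', hm.lt_iff_lt ha' S.hub_mem]

theorem lpt_one_own : S.lpt b 1 = mk (C.pos b) 0 := by
  classical
  simp [lpt]

theorem lpt_one_wr {x : Fin n} (hx : x ≠ b) (hw : S.wr x) :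
    S.lpt x 1 = mk (C.pos b) (- Real.exp (ky C b x)) := by
  classical
  have : S.lpt x 1 = S.ept x 0 := by simp [lpt, hx, hw]
  rw [this, ept_zero hx, S.st_wr hw]

theorem lpt_one_not {x : Fin n} (hx : x ≠ b) (hw : ¬ S.wr x) :
    S.lpt x 1 = mk ((C.arm b x).p 1) (S.tg x 1) := by
  classical
  have : S.lpt x 1 = S.ept x 1 := by simp [lpt, hx, hw]
  rw [this]
  rfl

theorem one_le_len (x : Fin n) : 1 ≤ S.len x := S.len_pos x

theorem lpt_one_ne (x : Fin n) : S.lpt x 1 ≠ S.hub := by
  intro h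
  rcases S.lpt_inj (x := x) (y := x) (i := 1) (j := 0) (S.one_le_len x) (Nat.zero_le _)
    (by rw [h, S.lpt_zero]) with h1 | h1 <;> omega

theorem up_own : S.up b = true := by
  classical
  simp [up]

theorem up_mem {x : Fin n} (hx : x ≠ b) (hB : x ∈ S.B) : S.up x = true := by
  classical
  unfold up
  rw [if_neg hx]
  by_cases h : S.wr x
  · rw [if_pos h]
    unfold wr at h
    have : ¬ (C.arm b x).up = true := fun h' => h.1 h' hB
    simpa using this
  · rw [if_neg h]
    unfold wr at h
    by_contra h'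
    exact h ⟨fun h2 => absurd h2 h', fun h2 => absurd hB h2⟩

theorem up_notMem {x : Fin n} (hx : x ≠ b) (hB : x ∉ S.B) : S.up x = false := by
  classical
  unfold up
  rw [if_neg hx]
  by_cases h : S.wr x
  · rw [if_pos h]
    unfold wr at h
    rw [h.2 hB]
    rfl
  · rw [if_neg h]
    unfold wr at h
    by_contra h'
    rw [Bool.not_eq_false] at h'
    exact h ⟨fun _ => hB, fun _ => h'⟩

variable (hε : GoodE C ε)

theorem sang_own : (S.star hε).ang b = Bp.th (val ε S.hub) (val ε (S.lpt b 1)) :=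
  Bp.SStar.ang_up _ (by exact S.up_own)

theorem sang_mem {x : Fin n} (hx : x ≠ b) (hB : x ∈ S.B) :
    (S.star hε).ang x = Bp.th (val ε S.hub) (val ε (S.lpt x 1)) :=
  Bp.SStar.ang_up _ (by exact S.up_mem hx hB)

theorem sang_notMem {x : Fin n} (hx : x ≠ b) (hB : x ∉ S.B) :
    (S.star hε).ang x = 4 - Bp.th (val ε S.hub) (val ε (S.lpt x 1)) :=
  Bp.SStar.ang_dn _ (by exact S.up_notMem hx hB)

theorem wr_mem {x : Fin n} (hB : x ∈ S.B) : S.wr x ↔ ¬ (C.arm b x).up = true := by
  unfold wr; tauto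

theorem wr_notMem {x : Fin n} (hB : x ∉ S.B) : S.wr x ↔ (C.arm b x).up = true := by
  unfold wr; tauto

/-- comparison of an arm with a point next to the leaf `b`, to the left of the centre -/
theorem th_near {x : Fin n} (hx : x ≠ b) (hw : ¬ S.wr x) {s : ℝ} (hs : s < 1) (hs' : s ∈ TT C)
    (h : GoodE C ε) :
    Bp.th (val ε S.hub) (val ε (S.lpt x 1)) < Bp.th (val ε S.hub) (val ε (mk (C.pos b) s)) := by
  rw [S.th_val h (S.lpt_mem (S.one_le_len x)) (mk_mem (pos_mem_PP b) hs') (S.lpt_one_ne x)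
    (by unfold hub; rw [Ne, mk_inj]; intro e; linarith [e.2])]
  rw [S.lpt_one_not hx hw]
  have hne : (C.arm b x).p 1 ≠ C.pos b := p_ne_pos C hx.symm one_pos (C.arm b x).len_pos
  unfold hub
  simp only [mk_lt]
  rcases lt_or_gt_of_ne hne with h1 | h1
  · right; left
    exact ⟨Or.inl h1, Or.inr ⟨trivial, hs⟩⟩
  · right; right
    exact ⟨Or.inr ⟨trivial, hs⟩, Or.inl h1⟩

/-- comparison of two direct arms -/
theorem th_direct {x y : Fin n} (hx : x ≠ b) (hy : y ≠ b) (hwx : ¬ S.wr x) (hwy : ¬ S.wr y)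
    (hk : ky C b x < ky C b y) (h : GoodE C ε) :
    Bp.th (val ε S.hub) (val ε (S.lpt x 1)) < Bp.th (val ε S.hub) (val ε (S.lpt y 1)) := by
  rw [S.th_val h (S.lpt_mem (S.one_le_len x)) (S.lpt_mem (S.one_le_len y)) (S.lpt_one_ne x)
    (S.lpt_one_ne y), S.lpt_one_not hx hwx, S.lpt_one_not hy hwy]
  have hnx : (C.arm b x).p 1 ≠ C.pos b := p_ne_pos C hx.symm one_pos (C.arm b x).len_pos
  have hny : (C.arm b y).p 1 ≠ C.pos b := p_ne_pos C hy.symm one_pos (C.arm b y).len_pos
  unfold ky at hk
  rw [key_lt_iff hnx.symm hny.symm] at hk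
  unfold hub
  simp only [mk_lt]
  rcases hk with ⟨h1, h2⟩ | ⟨h1, h2⟩ | ⟨h1, h2⟩
  · left
    exact ⟨Or.inl h1, Or.inl h2⟩
  · right; right
    exact ⟨Or.inl h2, Or.inl h1⟩
  · right; left
    exact ⟨Or.inl h1, Or.inl h2⟩

/-- comparison of two wrapped arms -/
theorem th_wrapped {x y : Fin n} (hx : x ≠ b) (hy : y ≠ b) (hwx : S.wr x) (hwy : S.wr y)
    (hk : ky C b y < ky C b x) (h : GoodE C ε) :
    Bp.th (val ε S.hub) (val ε (S.lpt x 1)) < Bp.th (val ε S.hub) (val ε (S.lpt y 1)) := by
  rw [S.th_val h (S.lpt_mem (S.one_le_len x)) (S.lpt_mem (S.one_le_len y)) (S.lpt_one_ne x)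
    (S.lpt_one_ne y), S.lpt_one_wr hx hwx, S.lpt_one_wr hy hwy]
  have e1 := Real.exp_pos (ky C b x)
  have e2 := Real.exp_pos (ky C b y)
  have e3 := Real.exp_lt_exp.2 hk
  unfold hub
  simp only [mk_lt]
  right; left
  exact ⟨Or.inr ⟨trivial, by linarith⟩, Or.inr ⟨trivial, by linarith⟩⟩

theorem exp_mem_TT (x : Fin n) : - Real.exp (ky C b x) ∈ TT C := Or.inr ⟨(b, x), rfl⟩

theorem ang_up' {x : Fin n} (h : (C.arm b x).up = true) :
    Slot.ang C b x = - Real.exp (- ky C b x) := by
  unfold Slot.ang; rw [if_pos h]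

theorem ang_dn' {x : Fin n} (h : ¬ (C.arm b x).up = true) :
    Slot.ang C b x = Real.exp (- ky C b x) := by
  unfold Slot.ang; rw [if_neg h]

/-- arms on one side of the slot are in the order of the edges -/
theorem sang_lt {x y : Fin n} (hx : x ≠ b) (hy : y ≠ b) (hB : x ∈ S.B ↔ y ∈ S.B)
    (hlt : Slot.ang C b x < Slot.ang C b y) : (S.star hε).ang x < (S.star hε).ang y := by
  have e1 := Real.exp_pos (- ky C b x)
  have e2 := Real.exp_pos (- ky C b y)
  by_cases hxB : x ∈ S.B
  · have hyB := hB.1 hxB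
    rw [S.sang_mem hε hx hxB, S.sang_mem hε hy hyB]
    by_cases ux : (C.arm b x).up = true <;> by_cases uy : (C.arm b y).up = true
    · rw [ang_up' ux, ang_up' uy, neg_lt_neg_iff, Real.exp_lt_exp, neg_lt_neg_iff] at hlt
      exact S.th_direct hx hy (by rw [S.wr_mem hxB]; tauto) (by rw [S.wr_mem hyB]; tauto) hlt hε
    · rw [S.lpt_one_wr hy ((S.wr_mem hyB).2 uy)]
      exact S.th_near hx (by rw [S.wr_mem hxB]; tauto) (by have := Real.exp_pos (ky C b y); linarith)
        (exp_mem_TT y) hε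
    · rw [ang_dn' ux, ang_up' uy] at hlt
      linarith
    · rw [ang_dn' ux, ang_dn' uy, Real.exp_lt_exp, neg_lt_neg_iff] at hlt
      exact S.th_wrapped hx hy ((S.wr_mem hxB).2 ux) ((S.wr_mem hyB).2 uy) hlt hε
  · have hyB : y ∉ S.B := fun h => hxB (hB.2 h)
    rw [S.sang_notMem hε hx hxB, S.sang_notMem hε hy hyB, sub_lt_sub_iff_left]
    by_cases ux : (C.arm b x).up = true <;> by_cases uy : (C.arm b y).up = true
    · rw [ang_up' ux, ang_up' uy, neg_lt_neg_iff, Real.exp_lt_exp, neg_lt_neg_iff] at hlt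
      exact S.th_wrapped hy hx ((S.wr_notMem hyB).2 uy) ((S.wr_notMem hxB).2 ux) hlt hε
    · rw [S.lpt_one_wr hx ((S.wr_notMem hxB).2 ux)]
      exact S.th_near hy (by rw [S.wr_notMem hyB]; tauto)
        (by have := Real.exp_pos (ky C b x); linarith) (exp_mem_TT x) hε
    · rw [ang_dn' ux, ang_up' uy] at hlt
      linarith
    · rw [ang_dn' ux, ang_dn' uy, Real.exp_lt_exp, neg_lt_neg_iff] at hlt
      exact S.th_direct hy hx (by rw [S.wr_notMem hyB]; tauto) (by rw [S.wr_notMem hxB]; tauto)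
        hlt hε

theorem sang_lt_own {x : Fin n} (hx : x ≠ b) (hB : x ∈ S.B) :
    (S.star hε).ang x < (S.star hε).ang b := by
  rw [S.sang_mem hε hx hB, S.sang_own hε, S.lpt_one_own]
  by_cases hw : S.wr x
  · rw [S.th_val hε (S.lpt_mem (S.one_le_len x)) (mk_mem (pos_mem_PP b) zero_mem_TT)
      (S.lpt_one_ne x) (by unfold hub; rw [Ne, mk_inj]; intro e; linarith [e.2]),
      S.lpt_one_wr hx hw]
    have := Real.exp_pos (ky C b x)
    unfold hub
    simp only [mk_lt]
    right; left
    exact ⟨Or.inr ⟨trivial, by linarith⟩, Or.inr ⟨trivial, by linarith⟩⟩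
  · exact S.th_near hx hw one_pos zero_mem_TT hε

theorem own_lt_sang {x : Fin n} (hx : x ≠ b) (hB : x ∉ S.B) :
    (S.star hε).ang b < (S.star hε).ang x := by
  have h1 := ((S.star hε).ang_up_mem (x := b) (by exact S.up_own)).2
  have h2 := ((S.star hε).ang_dn_mem (x := x) (by exact S.up_notMem hx hB)).1
  linarith

end Slt

/-! ### the rotation of the edges at `b` -/

variable (C b)

/-- the other vertices in the order of the rotation at `b`, from the right -/
noncomputable def rotE : List (Fin n) := by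
  classical
  exact ((List.finRange n).map (Tuple.sort (Slot.ang C b))).filter fun x => x ≠ b

variable {C b}

theorem mem_rotE {x : Fin n} : x ∈ rotE C b ↔ x ≠ b := by
  classical
  unfold rotE
  rw [List.mem_filter]
  simp only [ne_eq, decide_not, Bool.not_eq_eq_eq_not, Bool.not_true, decide_eq_false_iff_not,
    and_iff_right_iff_imp]
  intro _
  exact List.mem_map.2 ⟨(Tuple.sort (Slot.ang C b)).symm x, List.mem_finRange _, by simp⟩

theorem rotE_pairwise : (rotE C b).Pairwise fun x y => Slot.ang C b x < Slot.ang C b y := by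
  classical
  have h1 : ((List.finRange n).map (Tuple.sort (Slot.ang C b))).Pairwise
      fun x y => x ≠ y ∧ Slot.ang C b x ≤ Slot.ang C b y := by
    rw [List.pairwise_map]
    refine (List.pairwise_lt_finRange n).imp ?_
    intro i j hij
    refine ⟨fun e => hij.ne ((Tuple.sort (Slot.ang C b)).injective e), ?_⟩
    exact Tuple.monotone_sort (Slot.ang C b) hij.le
  have h2 := h1.filter (p := fun x => decide (x ≠ b))
  have h3 : rotE C b = ((List.finRange n).map (Tuple.sort (Slot.ang C b))).filter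
      (fun x => decide (x ≠ b)) := rfl
  rw [h3]
  refine h2.imp_of_mem ?_
  intro x y hx hy hxy
  have hx' : x ≠ b := by simpa using (List.mem_filter.1 hx).2
  have hy' : y ≠ b := by simpa using (List.mem_filter.1 hy).2
  exact lt_of_le_of_ne hxy.2 fun e => hxy.1 (ang_inj C hx'.symm hy'.symm e)

theorem rotE_nodup : (rotE C b).Nodup :=
  rotE_pairwise.imp fun h e => by rw [e] at h; exact lt_irrefl _ h

namespace Slt

variable (S : Slt C b) {ε : ℝ} (hε : GoodE C ε)

open Classical in
/-- the arms before the slot -/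
noncomputable def bef : List (Fin n) := (rotE C b).filter fun x => x ∈ S.B

open Classical in
/-- the arms after the slot -/
noncomputable def aft : List (Fin n) := (rotE C b).filter fun x => x ∉ S.B

theorem mem_bef {x : Fin n} : x ∈ S.bef ↔ x ≠ b ∧ x ∈ S.B := by
  classical
  unfold bef
  rw [List.mem_filter, mem_rotE, decide_eq_true_eq]

theorem mem_aft {x : Fin n} : x ∈ S.aft ↔ x ≠ b ∧ x ∉ S.B := by
  classical
  unfold aft
  rw [List.mem_filter, mem_rotE, decide_eq_true_eq]

/-- the slot cuts the rotation -/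
theorem bef_aft : S.bef ++ S.aft = rotE C b := by
  classical
  have key : ∀ l : List (Fin n), (∀ x ∈ l, x ≠ b) →
      (l.Pairwise fun x y => Slot.ang C b x < Slot.ang C b y) →
      (l.filter fun x => x ∈ S.B) ++ (l.filter fun x => x ∉ S.B) = l := by
    intro l hl hp
    induction l with
    | nil => rfl
    | cons a l ih =>
      obtain ⟨h1, h2⟩ := List.pairwise_cons.1 hp
      have ih' := ih (fun x hx => hl x (List.mem_cons_of_mem _ hx)) h2
      by_cases ha : a ∈ S.B
      · rw [List.filter_cons_of_pos (by simpa using ha), List.filter_cons_of_neg (by simpa using ha),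
          List.cons_append, ih']
      · have h3 : (l.filter fun x => decide (x ∈ S.B)) = [] := by
          rw [List.filter_eq_nil_iff]
          intro x hx
          rw [decide_eq_true_eq]
          intro hxB
          exact ha (S.lower a x (hl a (by simp)) (hl x (List.mem_cons_of_mem _ hx)) hxB
            (h1 x hx).le)
        rw [List.filter_cons_of_neg (by simpa using ha), List.filter_cons_of_pos (by simpa using ha),
          h3, List.nil_append]
        rw [h3, List.nil_append] at ih'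
        rw [ih']
  exact key _ (fun x hx => mem_rotE.1 hx) rotE_pairwise

/-- **The rotation of the slot star**: the own leaf is inserted in the slot. -/
theorem star_rot : (S.star hε).rot = S.bef ++ b :: S.aft := by
  classical
  have hp1 : S.bef.Pairwise fun x y => Slot.ang C b x < Slot.ang C b y := rotE_pairwise.filter _
  have hp2 : S.aft.Pairwise fun x y => Slot.ang C b x < Slot.ang C b y := rotE_pairwise.filter _
  have hp : (S.bef ++ b :: S.aft).Pairwise fun x y => (S.star hε).ang x < (S.star hε).ang y := by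
    rw [List.pairwise_append, List.pairwise_cons]
    refine ⟨?_, ⟨?_, ?_⟩, ?_⟩
    · refine hp1.imp_of_mem ?_
      intro x y hx hy hxy
      have hx' := S.mem_bef.1 hx
      have hy' := S.mem_bef.1 hy
      exact S.sang_lt hε hx'.1 hy'.1 ⟨fun _ => hy'.2, fun _ => hx'.2⟩ hxy
    · intro y hy
      have hy' := S.mem_aft.1 hy
      exact S.own_lt_sang hε hy'.1 hy'.2
    · refine hp2.imp_of_mem ?_
      intro x y hx hy hxy
      have hx' := S.mem_aft.1 hx
      have hy' := S.mem_aft.1 hy
      exact S.sang_lt hε hx'.1 hy'.1 ⟨fun h => absurd h hx'.2, fun h => absurd h hy'.2⟩ hxy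
    · intro x hx y hy
      have hx' := S.mem_bef.1 hx
      have h1 := S.sang_lt_own hε hx'.1 hx'.2
      rcases List.mem_cons.1 hy with rfl | hy
      · exact h1
      · have hy' := S.mem_aft.1 hy
        exact h1.trans (S.own_lt_sang hε hy'.1 hy'.2)
  have hmem : ∀ x, x ∈ S.bef ++ b :: S.aft := by
    intro x
    rw [List.mem_append, List.mem_cons, S.mem_bef, S.mem_aft]
    by_cases h1 : x = b
    · exact Or.inr (Or.inl h1)
    · by_cases h2 : x ∈ S.B
      · exact Or.inl ⟨h1, h2⟩
      · exact Or.inr (Or.inr ⟨h1, h2⟩)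
  have hnd : (S.bef ++ b :: S.aft).Nodup := hp.imp fun h e => by
    rw [e] at h; exact lt_irrefl _ h
  have hperm : (S.star hε).rot.Perm (S.bef ++ b :: S.aft) :=
    (List.perm_ext_iff_of_nodup (S.star hε).rot_nodup hnd).2
      fun x => ⟨fun _ => hmem x, fun _ => (S.star hε).mem_rot x⟩
  exact hperm.eq_of_pairwise (fun a c _ _ h1 h2 => absurd h1 (not_lt.2 h2.le))
    (S.star hε).rot_pairwise hp

end Slt

end Vale.Agent.P040.Slot
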